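import Vale.Agent.P046.Bdl.B5

/-!
The number of live hyperedges at a fixed time, from the number of survivors at three times.
-/

set_option autoImplicit false

open scoped Classical
open Finset

namespace Vale.Agent.P046.H822

open Vale.Agent.P046 Vale.Agent.P046.S
open Vale.Agent.P046.K (Hyp)

section semi

variable {X : Type} [Fintype X]

/-- semigroup property -/
lemma P_add (L : (X → ℝ) →L[ℝ] (X → ℝ)) (s t : ℝ) (f : X → ℝ) :
    P L (s + t) f = P L s (P L t f) := by
  have h := P_unique L (fun r => P L (r + t) f) (by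
    intro r
    have h1 := (hasDerivAt_P_apply L (r + t) f).comp_add_const r t
    rw [P_comm] at h1
    exact h1) s
  simp only [zero_add] at h
  exact h.symm

/-- submartingale inequality -/
lemma P_sub (L : (X → ℝ) →L[ℝ] (X → ℝ)) (hL : QPos L) (t : ℝ) (ht : 0 ≤ t) (f : X → ℝ)
    (hf : ∀ x, 0 ≤ L f x) (x : X) : f x ≤ P L t f x := by
  have h := P_super L hL t ht (fun _ => -f) (fun _ => 0) (fun s _ => hasDerivAt_const s (-f))
    (fun s _ y => by
      rw [map_neg]
      simp only [Pi.neg_apply, Pi.zero_apply, add_zero]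
      have := hf y
      linarith) x
  rw [map_neg] at h
  simp only [Pi.neg_apply] at h
  linarith

/-- supermartingale inequality for a fixed function -/
lemma P_sup (L : (X → ℝ) →L[ℝ] (X → ℝ)) (hL : QPos L) (t : ℝ) (ht : 0 ≤ t) (f : X → ℝ)
    (hf : ∀ x, L f x ≤ 0) (x : X) : P L t f x ≤ f x :=
  P_super L hL t ht (fun _ => f) (fun _ => 0) (fun s _ => hasDerivAt_const s f)
    (fun s _ y => by
      simp only [Pi.zero_apply, add_zero]
      exact hf y) x

end semi

variable {α : Type} [Fintype α]

/-- contraction in mean -/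
lemma abs_P_sub_le (H : Finset (Finset α)) (t : ℝ) (ht : 0 ≤ t) (f : Finset α → ℝ) (c : ℝ)
    (A : Finset α) : |P (LH H) t f A - c| ≤ P (LH H) t (fun B => |f B - c|) A := by
  have e1 : ∀ g : Finset α → ℝ, P (LH H) t (fun B => g B + c) A = P (LH H) t g A + c := by
    intro g
    have e : (fun B => g B + c) = g + fun _ => c := rfl
    rw [e, map_add]
    simp only [Pi.add_apply, P_one]
  have h1 := P_mono (LH H) (LH_qpos H) t ht f (fun B => |f B - c| + c)
    (fun B => by have := le_abs_self (f B - c); linarith) A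
  have h2 := P_mono (LH H) (LH_qpos H) t ht (fun B => -|f B - c| + c) f
    (fun B => by have := neg_abs_le (f B - c); linarith) A
  rw [e1] at h1
  rw [e1 (fun B => -|f B - c|)] at h2
  have e2 : (fun B => -|f B - c|) = -(fun B => |f B - c|) := rfl
  rw [e2, map_neg] at h2
  simp only [Pi.neg_apply] at h2
  rw [abs_le]
  constructor <;> linarith

/-- the number of survivors in `V` -/
noncomputable def nV (V A : Finset α) : ℝ := ((A ∩ V).card : ℝ)

lemma LH_nlive_nonpos (H : Finset (Finset α)) (A : Finset α) : LH H (nlive H) A ≤ 0 := by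
  have e : nlive H = ∑ h ∈ H, mon h := by
    ext B
    rw [Finset.sum_apply]
    rfl
  rw [e, map_sum, Finset.sum_apply]
  exact Finset.sum_nonpos fun h _ => LH_mon_nonpos H h A

lemma LH_nV (H : Finset (Finset α)) (V : Finset α) (hV : Hyp V H) (A : Finset α) :
    LH H (nV V) A = -(3 * nlive H A) := by
  rw [LH_apply]
  unfold nlive
  rw [Finset.mul_sum, ← Finset.sum_neg_distrib]
  refine Finset.sum_congr rfl fun h hh => ?_
  unfold fire mon
  by_cases hA : h ⊆ A
  · rw [if_pos hA, if_pos hA]
    unfold nV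
    have hsub : h ⊆ A ∩ V := Finset.subset_inter hA (hV.sub h hh)
    have e1 : (A \ h) ∩ V = (A ∩ V) \ h := by
      ext x
      simp only [Finset.mem_inter, Finset.mem_sdiff]
      tauto
    rw [e1, Finset.card_sdiff_of_subset hsub, Nat.cast_sub (Finset.card_le_card hsub),
      hV.card h hh]
    norm_num
  · rw [if_neg hA, if_neg hA]
    norm_num

lemma P_nlive_le (H : Finset (Finset α)) (t : ℝ) (ht : 0 ≤ t) (A : Finset α) :
    P (LH H) t (nlive H) A ≤ nlive H A :=
  P_sup (LH H) (LH_qpos H) t ht (nlive H) (LH_nlive_nonpos H) A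

lemma hasDerivAt_nV (H : Finset (Finset α)) (V : Finset α) (hV : Hyp V H) (A : Finset α)
    (s : ℝ) : HasDerivAt (fun s => P (LH H) s (nV V) A) (-(3 * P (LH H) s (nlive H) A)) s := by
  have h := hasDerivAt_P_apply_pt (LH H) s (nV V) A
  have e : LH H (nV V) = (-3 : ℝ) • nlive H := by
    ext B
    rw [LH_nV H V hV B]
    simp
  rw [e, map_smul] at h
  have e2 : ((-3 : ℝ) • P (LH H) s (nlive H)) A = -(3 * P (LH H) s (nlive H) A) := by
    simp
  rw [e2] at h
  exact h

/-- the decrease of the number of survivors is at most `3 h` times the number of live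
hyperedges -/
lemma decr_le (H : Finset (Finset α)) (V : Finset α) (hV : Hyp V H) (A : Finset α) (h : ℝ)
    (hh : 0 ≤ h) : nV V A - P (LH H) h (nV V) A ≤ 3 * h * nlive H A := by
  have hd : ∀ s, HasDerivAt (fun s => P (LH H) s (nV V) A + 3 * nlive H A * s)
      (-(3 * P (LH H) s (nlive H) A) + 3 * nlive H A) s := by
    intro s
    have h1 : HasDerivAt (fun s : ℝ => 3 * nlive H A * s) (3 * nlive H A * 1) s :=
      (hasDerivAt_id s).const_mul _
    rw [mul_one] at h1
    exact (hasDerivAt_nV H V hV A s).add h1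
  have hmono : MonotoneOn (fun s => P (LH H) s (nV V) A + 3 * nlive H A * s) (Set.Icc 0 h) := by
    apply monotoneOn_of_deriv_nonneg (convex_Icc _ _)
    · exact fun s _ => (hd s).continuousAt.continuousWithinAt
    · exact fun s _ => (hd s).differentiableAt.differentiableWithinAt
    · intro s hs
      rw [interior_Icc] at hs
      rw [(hd s).deriv]
      have := P_nlive_le H s hs.1.le A
      linarith
  have h2 := hmono (Set.left_mem_Icc.mpr hh) (Set.right_mem_Icc.mpr hh) hh
  simp only [P_zero_apply, mul_zero, add_zero] at h2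
  linarith

/-- the decrease between two times is at least `3 (t - s)` times the mean number of live
hyperedges at the later time -/
lemma le_decr (H : Finset (Finset α)) (V : Finset α) (hV : Hyp V H) (A : Finset α) (s t : ℝ)
    (hs : 0 ≤ s) (hst : s ≤ t) :
    3 * (t - s) * P (LH H) t (nlive H) A ≤ P (LH H) s (nV V) A - P (LH H) t (nV V) A := by
  obtain ⟨c, hc⟩ : ∃ c, c = P (LH H) t (nlive H) A := ⟨_, rfl⟩
  have hd : ∀ r, HasDerivAt (fun r => P (LH H) r (nV V) A + 3 * c * r)
      (-(3 * P (LH H) r (nlive H) A) + 3 * c) r := by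
    intro r
    have h1 : HasDerivAt (fun r : ℝ => 3 * c * r) (3 * c * 1) r :=
      (hasDerivAt_id r).const_mul _
    rw [mul_one] at h1
    exact (hasDerivAt_nV H V hV A r).add h1
  have hanti : AntitoneOn (fun r => P (LH H) r (nV V) A + 3 * c * r) (Set.Icc s t) := by
    apply antitoneOn_of_deriv_nonpos (convex_Icc _ _)
    · exact fun r _ => (hd r).continuousAt.continuousWithinAt
    · exact fun r _ => (hd r).differentiableAt.differentiableWithinAt
    · intro r hr
      rw [interior_Icc] at hr
      rw [(hd r).deriv]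
      have := nlive_anti H A r t (hs.trans hr.1.le) hr.2.le
      rw [← hc] at this
      linarith
  have h := hanti (Set.left_mem_Icc.mpr hst) (Set.right_mem_Icc.mpr hst) hst
  simp only at h
  rw [← hc]
  linarith

/-- mean deviation of the number of survivors from `a` at the time `t` -/
noncomputable def Dv (H : Finset (Finset α)) (V : Finset α) (t a : ℝ) : ℝ :=
  P (LH H) t (fun A => |nV V A - a|) V

lemma Dv_nonneg (H : Finset (Finset α)) (V : Finset α) (t a : ℝ) (ht : 0 ≤ t) :
    0 ≤ Dv H V t a :=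
  P_nonneg (LH H) (LH_qpos H) t ht _ (fun _ => abs_nonneg _) V

/-- the number of live hyperedges at the time `t`, in mean -/
theorem nlive_dev (H : Finset (Finset α)) (V : Finset α) (hV : Hyp V H) (t0 t t2 a0 a a2 g : ℝ)
    (h0 : 0 ≤ t0) (h1 : t0 < t) (h2 : t < t2) (hg : g = (a - a2) / (3 * (t2 - t))) :
    P (LH H) t (fun A => |nlive H A - g|) V ≤
      (a0 - a) / (3 * (t - t0)) - g + (Dv H V t0 a0 + Dv H V t a) / (3 * (t - t0)) +
        2 * ((Dv H V t a + Dv H V t2 a2) / (3 * (t2 - t))) := by
  have hta : 0 < 3 * (t2 - t) := by linarith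
  have htb : 0 < 3 * (t - t0) := by linarith
  have ht0 : 0 ≤ t := h0.trans h1.le
  have hh : 0 ≤ t2 - t := by linarith
  obtain ⟨w, hw⟩ : ∃ w : Finset α → ℝ, w = fun A => (|nV V A - a| +
      P (LH H) (t2 - t) (fun B => |nV V B - a2|) A) / (3 * (t2 - t)) := ⟨_, rfl⟩
  have hw0 : ∀ A, 0 ≤ w A := by
    intro A
    rw [hw]
    have := P_nonneg (LH H) (LH_qpos H) (t2 - t) hh (fun B => |nV V B - a2|)
      (fun _ => abs_nonneg _) A
    have h5 := abs_nonneg (nV V A - a)
    exact div_nonneg (by linarith) hta.le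
  have hgw : ∀ A, g - nlive H A ≤ w A := by
    intro A
    rw [hw, hg]
    have h5 := decr_le H V hV A (t2 - t) hh
    have h6 := abs_P_sub_le H (t2 - t) hh (nV V) a2 A
    have h7 := abs_le.mp h6
    have h8 := abs_le.mp (le_refl |nV V A - a|)
    have e1 : nlive H A = (3 * (t2 - t) * nlive H A) / (3 * (t2 - t)) := by
      rw [mul_div_cancel_left₀ _ hta.ne']
    rw [e1, ← sub_div]
    apply div_le_div_of_nonneg_right _ hta.le
    linarith [h7.1, h7.2, h8.1, h8.2]
  have hpt : ∀ A, |nlive H A - g| ≤ (nlive H A + (-g)) + 2 * w A := by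
    intro A
    have h5 := hw0 A
    have h6 := hgw A
    rw [abs_le]
    constructor <;> linarith
  have h5 := P_mono (LH H) (LH_qpos H) t ht0 _ _ hpt V
  have e1 : (fun A => (nlive H A + (-g)) + 2 * w A) = (nlive H + fun _ => -g) + (2:ℝ) • w := rfl
  rw [e1, map_add, map_add, map_smul] at h5
  simp only [Pi.add_apply, Pi.smul_apply, smul_eq_mul, P_one] at h5
  have e2 : P (LH H) t w V = (Dv H V t a + Dv H V t2 a2) / (3 * (t2 - t)) := by
    have e3 : w = (1 / (3 * (t2 - t))) • ((fun A => |nV V A - a|) +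
        P (LH H) (t2 - t) (fun B => |nV V B - a2|)) := by
      rw [hw]
      ext A
      simp only [Pi.smul_apply, Pi.add_apply, smul_eq_mul]
      ring
    rw [e3, map_smul, map_add, ← P_add]
    have e4 : t + (t2 - t) = t2 := by ring
    rw [e4]
    simp only [Pi.smul_apply, Pi.add_apply, smul_eq_mul]
    unfold Dv
    ring
  rw [e2] at h5
  have h6 := le_decr H V hV V t0 t h0 h1.le
  have h7 := abs_le.mp (abs_P_sub_le H t0 h0 (nV V) a0 V)
  have h8 := abs_le.mp (abs_P_sub_le H t ht0 (nV V) a V)
  have h9 : P (LH H) t (nlive H) V ≤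
      (a0 - a) / (3 * (t - t0)) + (Dv H V t0 a0 + Dv H V t a) / (3 * (t - t0)) := by
    rw [← add_div, le_div_iff₀ htb]
    unfold Dv
    linarith [h7.1, h7.2, h8.1, h8.2]
  linarith

end Vale.Agent.P046.H822
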