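import Vale.Agent.P046.Bdl.B6
import Vale.Agent.P046.H822.Semi

/-!
From a fixed time to a fixed step.
-/

set_option autoImplicit false

open scoped Classical
open Finset

namespace Vale.Agent.P046.H822

open Vale.Agent.P046 Vale.Agent.P046.S
open Vale.Agent.P046.K (Hyp TH hedge)
open Vale.Agent.P046.A (GA mem_triangles_GA mem_triangles hedge_inj remove_GA GA_self
  numEdges_GA live_card)

variable {n : ℕ}

/-- the generator on functions of the graph -/
lemma LH_graph (G : SimpleGraph (Fin n)) (U : SimpleGraph (Fin n) → ℝ)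
    (A : Finset (Sym2 (Fin n))) :
    LH (TH G) (fun S => U (GA (S ∩ G.edgeFinset))) A =
      ∑ t ∈ triangles (GA (A ∩ G.edgeFinset)),
        (U (removeTriangle (GA (A ∩ G.edgeFinset)) t) - U (GA (A ∩ G.edgeFinset))) := by
  rw [LH_apply]
  have h1 : ∑ h ∈ TH G, (U (GA (fire h A ∩ G.edgeFinset)) - U (GA (A ∩ G.edgeFinset))) =
      ∑ t ∈ triangles G, (U (GA (fire (hedge t) A ∩ G.edgeFinset)) -
        U (GA (A ∩ G.edgeFinset))) := by
    unfold TH
    rw [Finset.sum_image]
    intro t ht t' ht' h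
    rw [Finset.mem_coe, mem_triangles] at ht ht'
    exact hedge_inj ht.1 ht'.1 h
  rw [h1]
  have h3 : triangles (GA (A ∩ G.edgeFinset)) = (triangles G).filter (fun t => hedge t ⊆ A) := by
    ext t
    rw [mem_triangles_GA, Finset.mem_filter]
  rw [h3, Finset.sum_filter]
  refine Finset.sum_congr rfl fun t _ => ?_
  by_cases hA : hedge t ⊆ A
  · rw [if_pos hA, remove_GA]
    unfold fire
    rw [if_pos hA]
    rw [Vale.Agent.P046.A.sdiff_inst (fun a b => Classical.propDecidable (a = b)) (inferInstance)]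
  · rw [if_neg hA]
    unfold fire
    rw [if_neg hA, sub_self]

/-- submartingales of the triangle removal process -/
lemma graph_sub (G : SimpleGraph (Fin n)) (U : SimpleGraph (Fin n) → ℝ)
    (hU : ∀ G' : SimpleGraph (Fin n), 0 ≤ ∑ t ∈ triangles G', (U (removeTriangle G' t) - U G'))
    (t : ℝ) (ht : 0 ≤ t) :
    U G ≤ P (LH (TH G)) t (fun S => U (GA (S ∩ G.edgeFinset))) G.edgeFinset := by
  have h := P_sub (LH (TH G)) (LH_qpos _) t ht (fun S => U (GA (S ∩ G.edgeFinset)))
    (fun A => by rw [LH_graph]; exact hU _) G.edgeFinset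
  simp only [GA_self] at h
  exact h

/-- monotone functions decrease along the process -/
lemma V_le_self (F : SimpleGraph (Fin n) → ℝ)
    (hF : ∀ (G : SimpleGraph (Fin n)) (t : Finset (Fin n)), t ∈ triangles G →
      F (removeTriangle G t) ≤ F G) (k : ℕ) :
    ∀ G : SimpleGraph (Fin n), V F k G ≤ F G := by
  induction k with
  | zero =>
    intro G
    rw [V_zero]
  | succ k ih =>
    intro G
    by_cases hT : (triangles G).Nonempty
    · have h5 : (0 : ℝ) < ((triangles G).card : ℝ) := by
        exact_mod_cast Finset.card_pos.mpr hT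
      rw [V_succ_of_nonempty _ _ _ hT, div_le_iff₀ h5]
      calc ∑ t ∈ triangles G, V F k (removeTriangle G t) ≤ ∑ _t ∈ triangles G, F G :=
            Finset.sum_le_sum fun t ht => (ih _).trans (hF G t ht)
        _ = F G * ((triangles G).card : ℝ) := by
            rw [Finset.sum_const, nsmul_eq_mul]
            ring
    · rw [V_of_empty F _ G hT]

/-- the averaging identity for the value function -/
lemma V_avg (F : SimpleGraph (Fin n) → ℝ) (k : ℕ) (G : SimpleGraph (Fin n)) :
    ∑ t ∈ triangles G, (V F k (removeTriangle G t) - V F (k + 1) G) = 0 := by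
  by_cases hT : (triangles G).Nonempty
  · have h5 : (0 : ℝ) < ((triangles G).card : ℝ) := by
      exact_mod_cast Finset.card_pos.mpr hT
    rw [V_succ_of_nonempty _ _ _ hT, Finset.sum_sub_distrib, Finset.sum_const, nsmul_eq_mul]
    field_simp
    ring
  · rw [Finset.not_nonempty_iff_eq_empty] at hT
    rw [hT, Finset.sum_empty]

/-- indicator that the number of triangles is at least `θ` -/
noncomputable def Tge (θ : ℝ) (G : SimpleGraph (Fin n)) : ℝ :=
  if θ ≤ ((triangles G).card : ℝ) then 1 else 0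

/-- indicator that the number of triangles is at most `θ` -/
noncomputable def Tle (θ : ℝ) (G : SimpleGraph (Fin n)) : ℝ :=
  if ((triangles G).card : ℝ) ≤ θ then 1 else 0

lemma Tge_nonneg (θ : ℝ) (G : SimpleGraph (Fin n)) : 0 ≤ Tge θ G := by
  unfold Tge; split_ifs <;> norm_num

lemma Tge_le_one (θ : ℝ) (G : SimpleGraph (Fin n)) : Tge θ G ≤ 1 := by
  unfold Tge; split_ifs <;> norm_num

lemma Tle_nonneg (θ : ℝ) (G : SimpleGraph (Fin n)) : 0 ≤ Tle θ G := by
  unfold Tle; split_ifs <;> norm_num

lemma Tle_le_one (θ : ℝ) (G : SimpleGraph (Fin n)) : Tle θ G ≤ 1 := by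
  unfold Tle; split_ifs <;> norm_num

lemma Tge_remove (θ : ℝ) (G : SimpleGraph (Fin n)) (t : Finset (Fin n)) (ht : t ∈ triangles G) :
    Tge θ (removeTriangle G t) ≤ Tge θ G := by
  have h1 : ((triangles (removeTriangle G t)).card : ℝ) + 1 ≤ (triangles G).card := by
    exact_mod_cast Vale.Agent.P046.A.triangles_remove G t ht
  unfold Tge
  by_cases h : θ ≤ ((triangles G).card : ℝ)
  · rw [if_pos h]
    split_ifs <;> norm_num
  · rw [if_neg h, if_neg]
    intro h2
    exact h (by linarith)

lemma Tle_remove (θ : ℝ) (G : SimpleGraph (Fin n)) (t : Finset (Fin n)) (ht : t ∈ triangles G) :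
    Tle θ G ≤ Tle θ (removeTriangle G t) := by
  have h1 : ((triangles (removeTriangle G t)).card : ℝ) + 1 ≤ (triangles G).card := by
    exact_mod_cast Vale.Agent.P046.A.triangles_remove G t ht
  unfold Tle
  by_cases h : ((triangles G).card : ℝ) ≤ θ
  · rw [if_pos h, if_pos (by linarith)]
  · rw [if_neg h]
    split_ifs <;> norm_num

lemma V_le_one (F : SimpleGraph (Fin n) → ℝ) (hF : ∀ G, F G ≤ 1) (k : ℕ)
    (G : SimpleGraph (Fin n)) : V F k G ≤ 1 := by
  have h := LB.V_mono F (fun _ => 1) hF k G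
  rwa [LB.V_const] at h

/-- the upper functional -/
noncomputable def Uge (θ : ℝ) (e : ℕ) (G : SimpleGraph (Fin n)) : ℝ :=
  if numEdges G < e then 1 else V (Tge θ) ((numEdges G - e) / 3) G

/-- the lower functional -/
noncomputable def Ule (θ : ℝ) (e : ℕ) (G : SimpleGraph (Fin n)) : ℝ :=
  V (Tle θ) ((numEdges G - e) / 3) G

lemma Uge_sub (θ : ℝ) (e : ℕ) (G : SimpleGraph (Fin n)) :
    0 ≤ ∑ t ∈ triangles G, (Uge θ e (removeTriangle G t) - Uge θ e G) := by
  by_cases h1 : numEdges G < e
  · apply Finset.sum_nonneg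
    intro t ht
    have h2 := numEdges_removeTriangle G t ht
    unfold Uge
    rw [if_pos h1, if_pos (by omega)]
    norm_num
  · by_cases h3 : numEdges G < e + 3
    · apply Finset.sum_nonneg
      intro t ht
      have h2 := numEdges_removeTriangle G t ht
      unfold Uge
      rw [if_neg h1, if_pos (by omega)]
      have := V_le_one (Tge θ) (Tge_le_one θ) ((numEdges G - e) / 3) G
      linarith
    · obtain ⟨k, hk⟩ : ∃ k, (numEdges G - e) / 3 = k + 1 :=
        ⟨(numEdges G - e) / 3 - 1, by omega⟩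
      have h4 := V_avg (Tge θ) k G
      have h5 : ∑ t ∈ triangles G, (Uge θ e (removeTriangle G t) - Uge θ e G) =
          ∑ t ∈ triangles G, (V (Tge θ) k (removeTriangle G t) - V (Tge θ) (k + 1) G) := by
        refine Finset.sum_congr rfl fun t ht => ?_
        have h2 := numEdges_removeTriangle G t ht
        unfold Uge
        rw [if_neg h1, if_neg (by omega), hk]
        have h6 : (numEdges (removeTriangle G t) - e) / 3 = k := by omega
        rw [h6]
      rw [h5, h4]

lemma Ule_sub (θ : ℝ) (e : ℕ) (G : SimpleGraph (Fin n)) :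
    0 ≤ ∑ t ∈ triangles G, (Ule θ e (removeTriangle G t) - Ule θ e G) := by
  by_cases h3 : numEdges G < e + 3
  · apply Finset.sum_nonneg
    intro t ht
    have h2 := numEdges_removeTriangle G t ht
    unfold Ule
    have e1 : (numEdges G - e) / 3 = 0 := by omega
    have e2 : (numEdges (removeTriangle G t) - e) / 3 = 0 := by omega
    rw [e1, e2, V_zero, V_zero]
    have := Tle_remove θ G t ht
    linarith
  · obtain ⟨k, hk⟩ : ∃ k, (numEdges G - e) / 3 = k + 1 :=
      ⟨(numEdges G - e) / 3 - 1, by omega⟩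
    have h4 := V_avg (Tle θ) k G
    have h5 : ∑ t ∈ triangles G, (Ule θ e (removeTriangle G t) - Ule θ e G) =
        ∑ t ∈ triangles G, (V (Tle θ) k (removeTriangle G t) - V (Tle θ) (k + 1) G) := by
      refine Finset.sum_congr rfl fun t ht => ?_
      have h2 := numEdges_removeTriangle G t ht
      unfold Ule
      rw [hk]
      have h6 : (numEdges (removeTriangle G t) - e) / 3 = k := by omega
      rw [h6]
    rw [h5, h4]

lemma nlive_graph (G : SimpleGraph (Fin n)) (A : Finset (Sym2 (Fin n))) :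
    nlive (TH G) A = ((triangles (GA (A ∩ G.edgeFinset))).card : ℝ) := by
  rw [Lv.nlive_eq (TH G) A (fun h => inferInstance), live_card]

lemma nV_graph (G : SimpleGraph (Fin n)) (A : Finset (Sym2 (Fin n))) :
    nV G.edgeFinset A = (numEdges (GA (A ∩ G.edgeFinset)) : ℝ) := by
  unfold nV
  rw [numEdges_GA, Lv.inter_inst (fun a b => Classical.propDecidable (a = b)) (inferInstance)]

/-- upper bound for the number of triangles at a fixed step -/
theorem step_ge (G : SimpleGraph (Fin n)) (θ : ℝ) (e j : ℕ) (he : numEdges G = e + 3 * j)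
    (t : ℝ) (ht : 0 ≤ t) :
    V (Tge θ) j G ≤ P (LH (TH G)) t (fun A => (if θ ≤ nlive (TH G) A then (1:ℝ) else 0) +
      (if nV G.edgeFinset A < e then (1:ℝ) else 0)) G.edgeFinset := by
  have h1 := graph_sub G (Uge θ e) (Uge_sub θ e) t ht
  have h2 : Uge θ e G = V (Tge θ) j G := by
    unfold Uge
    rw [if_neg (by omega)]
    have : (numEdges G - e) / 3 = j := by omega
    rw [this]
  rw [h2] at h1
  refine h1.trans (P_mono (LH (TH G)) (LH_qpos _) t ht _ _ (fun A => ?_) _)
  rw [nlive_graph, nV_graph]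
  unfold Uge
  by_cases h3 : numEdges (GA (A ∩ G.edgeFinset)) < e
  · have h4 : (numEdges (GA (A ∩ G.edgeFinset)) : ℝ) < e := by exact_mod_cast h3
    rw [if_pos h3, if_pos h4]
    split_ifs <;> norm_num
  · have h4 : ¬ (numEdges (GA (A ∩ G.edgeFinset)) : ℝ) < e := by exact_mod_cast h3
    rw [if_neg h3, if_neg h4, add_zero]
    exact V_le_self (Tge θ) (Tge_remove θ) _ _

/-- lower bound for the number of triangles at a fixed step -/
theorem step_le (G : SimpleGraph (Fin n)) (θ : ℝ) (e j : ℕ) (he : numEdges G = e + 3 * j)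
    (t : ℝ) (ht : 0 ≤ t) :
    V (Tle θ) j G ≤ P (LH (TH G)) t (fun A => (if nlive (TH G) A ≤ θ then (1:ℝ) else 0) +
      (if (e:ℝ) + 3 ≤ nV G.edgeFinset A then (1:ℝ) else 0)) G.edgeFinset := by
  have h1 := graph_sub G (Ule θ e) (Ule_sub θ e) t ht
  have h2 : Ule θ e G = V (Tle θ) j G := by
    unfold Ule
    have : (numEdges G - e) / 3 = j := by omega
    rw [this]
  rw [h2] at h1
  refine h1.trans (P_mono (LH (TH G)) (LH_qpos _) t ht _ _ (fun A => ?_) _)
  rw [nlive_graph, nV_graph]
  unfold Ule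
  by_cases h3 : e + 3 ≤ numEdges (GA (A ∩ G.edgeFinset))
  · have h4 : (e:ℝ) + 3 ≤ (numEdges (GA (A ∩ G.edgeFinset)) : ℝ) := by exact_mod_cast h3
    rw [if_pos h4]
    have := V_le_one (Tle θ) (Tle_le_one θ) ((numEdges (GA (A ∩ G.edgeFinset)) - e) / 3)
      (GA (A ∩ G.edgeFinset))
    have h5 : (0:ℝ) ≤ (if ((triangles (GA (A ∩ G.edgeFinset))).card : ℝ) ≤ θ
      then (1:ℝ) else 0) := by split_ifs <;> norm_num
    linarith
  · have h4 : ¬ (e:ℝ) + 3 ≤ (numEdges (GA (A ∩ G.edgeFinset)) : ℝ) := by
      intro h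
      exact h3 (by exact_mod_cast h)
    have e1 : (numEdges (GA (A ∩ G.edgeFinset)) - e) / 3 = 0 := by omega
    rw [if_neg h4, e1, V_zero, add_zero]
    unfold Tle
    exact le_refl _

/-- Markov inequality for the semigroup -/
lemma P_markov {α : Type} [Fintype α] (H : Finset (Finset α)) (t : ℝ) (ht : 0 ≤ t)
    (p : Finset α → Prop) (w : Finset α → ℝ) (c : ℝ) (hc : 0 < c) (hw : ∀ A, 0 ≤ w A)
    (hp : ∀ A, p A → c ≤ w A) (A : Finset α) :
    P (LH H) t (fun B => if p B then (1:ℝ) else 0) A ≤ P (LH H) t w A / c := by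
  have h1 := P_mono (LH H) (LH_qpos H) t ht (fun B => if p B then (1:ℝ) else 0) ((1 / c) • w)
    (fun B => by
      simp only [Pi.smul_apply, smul_eq_mul]
      by_cases h : p B
      · rw [if_pos h]
        have := hp B h
        rw [one_div, inv_mul_eq_div, le_div_iff₀ hc]
        linarith
      · rw [if_neg h]
        have := hw B
        positivity) A
  rw [map_smul] at h1
  simp only [Pi.smul_apply, smul_eq_mul] at h1
  calc _ ≤ _ := h1
    _ = _ := by ring

end Vale.Agent.P046.H822
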