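import Vale.Agent.P046.H822.Real
import Vale.Agent.P046.H822.Fix

/-!
Concentration of the number of triangles, given the graph at a high level.
-/

set_option autoImplicit false

open scoped Classical
open Finset

namespace Vale.Agent.P046.H822

open Vale.Agent.P046 Vale.Agent.P046.S
open Vale.Agent.P046.K (Hyp TH hedge)

section hg

variable {α : Type} [Fintype α]

/-- the number of live hyperedges at the time at which `y` is reached -/
theorem live_conc (H : Finset (Finset α)) (V : Finset α) (hV : Hyp V H)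
    (Λ s η δ C y : ℝ) (hs : 0 < s) (hη : 0 ≤ η) (hδ : 0 < δ) (hC : 0 < C) (hyδ : 0 < y - δ)
    (hyΛ : y + δ ≤ Λ) (hB : 0 < BB Λ (y - δ)) (hC1 : fL Λ (y + δ) ≤ C) (hC2 : fL Λ y ≤ C)
    (hD0 : Dv H V (tt Λ (y + δ)) ((y + δ) * s) ≤ η * s)
    (hD1 : Dv H V (tt Λ y) (y * s) ≤ η * s)
    (hD2 : Dv H V (tt Λ (y - δ)) ((y - δ) * s) ≤ η * s) :
    ∃ g : ℝ, fL Λ (y - δ) * s ≤ g ∧ g ≤ fL Λ y * s ∧
      P (LH H) (tt Λ y) (fun A => |nlive H A - g|) V ≤
        (fL Λ (y + δ) - fL Λ (y - δ)) * s + 6 * η * s * C / δ := by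
  have hy0 : 0 < y := by linarith
  have hBy : 0 < BB Λ y := hB.trans (BB_lt Λ (y - δ) y hyδ (by linarith))
  have hBy2 : 0 < BB Λ (y + δ) := hBy.trans (BB_lt Λ y (y + δ) hy0 (by linarith))
  obtain ⟨s1, s2, s3⟩ := slope Λ (y - δ) y hyδ (by linarith) hB
  obtain ⟨r1, r2, r3⟩ := slope Λ y (y + δ) hy0 (by linarith) hBy
  have e1 : y - (y - δ) = δ := by ring
  have e2 : y + δ - y = δ := by ring
  rw [e1] at s2 s3
  rw [e2] at r2 r3
  obtain ⟨t0, ht0⟩ : ∃ t0, t0 = tt Λ (y + δ) := ⟨_, rfl⟩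
  obtain ⟨t, ht⟩ : ∃ t, t = tt Λ y := ⟨_, rfl⟩
  obtain ⟨t2, ht2⟩ : ∃ t2, t2 = tt Λ (y - δ) := ⟨_, rfl⟩
  have ht00 : 0 ≤ t0 := by
    rw [ht0]
    unfold tt
    have := Real.log_nonpos hBy2.le (BB_le_one Λ (y + δ) (by linarith) hyΛ)
    linarith
  rw [← ht, ← ht2] at s1 s2 s3
  rw [← ht, ← ht0] at r1 r2 r3
  rw [← ht0] at hD0
  rw [← ht] at hD1 ⊢
  rw [← ht2] at hD2
  have h2 : 0 < 3 * (t2 - t) := by linarith
  have h1 : 0 < 3 * (t - t0) := by linarith
  obtain ⟨g, hg⟩ : ∃ g, g = (y * s - (y - δ) * s) / (3 * (t2 - t)) := ⟨_, rfl⟩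
  have h := nlive_dev H V hV t0 t t2 ((y + δ) * s) (y * s) ((y - δ) * s) g ht00 r1 s1 hg
  have e3 : y * s - (y - δ) * s = δ * s := by ring
  have e4 : (y + δ) * s - y * s = δ * s := by ring
  rw [e3] at hg
  rw [e4] at h
  have g1 : fL Λ (y - δ) * s ≤ g := by
    rw [hg, le_div_iff₀ h2]
    have := mul_le_mul_of_nonneg_right s3 hs.le
    linarith
  have g2 : g ≤ fL Λ y * s := by
    rw [hg, div_le_iff₀ h2]
    have := mul_le_mul_of_nonneg_right s2 hs.le
    linarith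
  have g3 : δ * s / (3 * (t - t0)) ≤ fL Λ (y + δ) * s := by
    rw [div_le_iff₀ h1]
    have := mul_le_mul_of_nonneg_right r2 hs.le
    linarith
  have hηs : 0 ≤ η * s := by positivity
  have k1 : (Dv H V t0 ((y + δ) * s) + Dv H V t (y * s)) / (3 * (t - t0)) ≤
      2 * (η * s) * C / δ := by
    rw [div_le_div_iff₀ h1 hδ]
    have k2 : δ ≤ C * (3 * (t - t0)) := by
      have := mul_le_mul_of_nonneg_left hC1 h1.le
      linarith
    calc (Dv H V t0 ((y + δ) * s) + Dv H V t (y * s)) * δ ≤ (2 * (η * s)) * δ :=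
          mul_le_mul_of_nonneg_right (by linarith) hδ.le
      _ ≤ (2 * (η * s)) * (C * (3 * (t - t0))) := mul_le_mul_of_nonneg_left k2 (by linarith)
      _ = _ := by ring
  have k3 : (Dv H V t (y * s) + Dv H V t2 ((y - δ) * s)) / (3 * (t2 - t)) ≤
      2 * (η * s) * C / δ := by
    rw [div_le_div_iff₀ h2 hδ]
    have k2 : δ ≤ C * (3 * (t2 - t)) := by
      have := mul_le_mul_of_nonneg_left hC2 h2.le
      linarith
    calc (Dv H V t (y * s) + Dv H V t2 ((y - δ) * s)) * δ ≤ (2 * (η * s)) * δ :=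
          mul_le_mul_of_nonneg_right (by linarith) hδ.le
      _ ≤ (2 * (η * s)) * (C * (3 * (t2 - t))) := mul_le_mul_of_nonneg_left k2 (by linarith)
      _ = _ := by ring
  refine ⟨g, g1, g2, h.trans ?_⟩
  have e5 : 6 * η * s * C / δ = 3 * (2 * (η * s) * C / δ) := by ring
  rw [e5]
  linarith

end hg

variable {n : ℕ}

/-- upper tail of the number of triangles at a step -/
theorem tri_upper (G : SimpleGraph (Fin n)) (Λ s η δ C x θ : ℝ) (e j : ℕ)
    (he : numEdges G = e + 3 * j) (hx : (e:ℝ) = x * s) (hx0 : 0 < x)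
    (hs : 0 < s) (hη : 0 ≤ η) (hδ : 0 < δ) (hC : 0 < C)
    (hyΛ : x + 2 * δ ≤ Λ) (hB : 0 < BB Λ x) (hC1 : fL Λ (x + 2 * δ) ≤ C)
    (hC2 : fL Λ (x + δ) ≤ C)
    (hD0 : Dv (TH G) G.edgeFinset (tt Λ (x + 2 * δ)) ((x + 2 * δ) * s) ≤ η * s)
    (hD1 : Dv (TH G) G.edgeFinset (tt Λ (x + δ)) ((x + δ) * s) ≤ η * s)
    (hD2 : Dv (TH G) G.edgeFinset (tt Λ x) (x * s) ≤ η * s)
    (hθ : fL Λ (x + δ) * s < θ) :
    V (Tge θ) j G ≤ ((fL Λ (x + 2 * δ) - fL Λ x) * s + 6 * η * s * C / δ) /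
      (θ - fL Λ (x + δ) * s) + η / δ := by
  have e1 : x + δ + δ = x + 2 * δ := by ring
  have e2 : x + δ - δ = x := by ring
  obtain ⟨g, g1, g2, g3⟩ := live_conc (TH G) G.edgeFinset (Vale.Agent.P046.A.TH_hyp G) Λ s η δ C (x + δ) hs hη
    hδ hC (by rw [e2]; exact hx0) (by rw [e1]; exact hyΛ) (by rw [e2]; exact hB)
    (by rw [e1]; exact hC1) hC2 (by rw [e1]; exact hD0) hD1 (by rw [e2]; exact hD2)
  rw [e1, e2] at g3
  obtain ⟨t, ht⟩ : ∃ t, t = tt Λ (x + δ) := ⟨_, rfl⟩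
  have ht0 : 0 ≤ t := by
    rw [ht]
    unfold tt
    have h1 := BB_lt Λ x (x + δ) hx0 (by linarith)
    have := Real.log_nonpos (hB.trans h1).le (BB_le_one Λ (x + δ) (by linarith) (by linarith))
    linarith
  rw [← ht] at g3 hD1
  have h1 := step_ge G θ e j he t ht0
  have e3 : (fun A => (if θ ≤ nlive (TH G) A then (1:ℝ) else 0) +
      (if nV G.edgeFinset A < e then (1:ℝ) else 0)) =
      (fun A => if θ ≤ nlive (TH G) A then (1:ℝ) else 0) +
        fun A => if nV G.edgeFinset A < e then (1:ℝ) else 0 := rfl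
  rw [e3, map_add] at h1
  simp only [Pi.add_apply] at h1
  have hc : 0 < θ - fL Λ (x + δ) * s := by linarith
  have h2 := P_markov (TH G) t ht0 (fun A => θ ≤ nlive (TH G) A) (fun A => |nlive (TH G) A - g|)
    (θ - fL Λ (x + δ) * s) hc (fun A => abs_nonneg _) (fun A hA => by
      have := le_abs_self (nlive (TH G) A - g)
      linarith) G.edgeFinset
  have hδs : 0 < δ * s := by positivity
  have h3 := P_markov (TH G) t ht0 (fun A => nV G.edgeFinset A < e)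
    (fun A => |nV G.edgeFinset A - (x + δ) * s|)
    (δ * s) hδs (fun A => abs_nonneg _) (fun A hA => by
      have := neg_abs_le (nV G.edgeFinset A - (x + δ) * s)
      rw [hx] at hA
      have e4 : (x + δ) * s = x * s + δ * s := by ring
      linarith) G.edgeFinset
  have h4 : P (LH (TH G)) t (fun A => |nV G.edgeFinset A - (x + δ) * s|) G.edgeFinset / (δ * s) ≤
      η / δ := by
    rw [div_le_div_iff₀ hδs hδ]
    have := mul_le_mul_of_nonneg_right hD1 hδ.le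
    unfold Dv at this
    linarith
  have h5 : P (LH (TH G)) t (fun A => |nlive (TH G) A - g|) G.edgeFinset /
      (θ - fL Λ (x + δ) * s) ≤ ((fL Λ (x + 2 * δ) - fL Λ x) * s + 6 * η * s * C / δ) /
      (θ - fL Λ (x + δ) * s) := div_le_div_of_nonneg_right g3 hc.le
  linarith

/-- lower tail of the number of triangles at a step -/
theorem tri_lower (G : SimpleGraph (Fin n)) (Λ s η δ C x θ : ℝ) (e j : ℕ)
    (he : numEdges G = e + 3 * j) (hx : (e:ℝ) = x * s) (hx0 : 0 < x - 2 * δ)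
    (hs : 0 < s) (hη : 0 ≤ η) (hδ : 0 < δ) (hC : 0 < C)
    (hyΛ : x ≤ Λ) (hB : 0 < BB Λ (x - 2 * δ)) (hC1 : fL Λ x ≤ C)
    (hC2 : fL Λ (x - δ) ≤ C)
    (hD0 : Dv (TH G) G.edgeFinset (tt Λ x) (x * s) ≤ η * s)
    (hD1 : Dv (TH G) G.edgeFinset (tt Λ (x - δ)) ((x - δ) * s) ≤ η * s)
    (hD2 : Dv (TH G) G.edgeFinset (tt Λ (x - 2 * δ)) ((x - 2 * δ) * s) ≤ η * s)
    (hθ : θ < fL Λ (x - 2 * δ) * s) :
    V (Tle θ) j G ≤ ((fL Λ x - fL Λ (x - 2 * δ)) * s + 6 * η * s * C / δ) /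
      (fL Λ (x - 2 * δ) * s - θ) + η / δ := by
  have e1 : x - δ + δ = x := by ring
  have e2 : x - δ - δ = x - 2 * δ := by ring
  obtain ⟨g, g1, g2, g3⟩ := live_conc (TH G) G.edgeFinset (Vale.Agent.P046.A.TH_hyp G) Λ s η δ C (x - δ) hs hη
    hδ hC (by rw [e2]; exact hx0) (by rw [e1]; exact hyΛ) (by rw [e2]; exact hB)
    (by rw [e1]; exact hC1) hC2 (by rw [e1]; exact hD0) hD1 (by rw [e2]; exact hD2)
  rw [e1, e2] at g3
  rw [e2] at g1
  obtain ⟨t, ht⟩ : ∃ t, t = tt Λ (x - δ) := ⟨_, rfl⟩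
  have ht0 : 0 ≤ t := by
    rw [ht]
    unfold tt
    have h1 := BB_lt Λ (x - 2 * δ) (x - δ) hx0 (by linarith)
    have := Real.log_nonpos (hB.trans h1).le (BB_le_one Λ (x - δ) (by linarith) (by linarith))
    linarith
  rw [← ht] at g3 hD1
  have h1 := step_le G θ e j he t ht0
  have e3 : (fun A => (if nlive (TH G) A ≤ θ then (1:ℝ) else 0) +
      (if (e:ℝ) + 3 ≤ nV G.edgeFinset A then (1:ℝ) else 0)) =
      (fun A => if nlive (TH G) A ≤ θ then (1:ℝ) else 0) +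
        fun A => if (e:ℝ) + 3 ≤ nV G.edgeFinset A then (1:ℝ) else 0 := rfl
  rw [e3, map_add] at h1
  simp only [Pi.add_apply] at h1
  have hc : 0 < fL Λ (x - 2 * δ) * s - θ := by linarith
  have h2 := P_markov (TH G) t ht0 (fun A => nlive (TH G) A ≤ θ) (fun A => |nlive (TH G) A - g|)
    (fL Λ (x - 2 * δ) * s - θ) hc (fun A => abs_nonneg _) (fun A hA => by
      have := neg_abs_le (nlive (TH G) A - g)
      linarith) G.edgeFinset
  have hδs : 0 < δ * s := by positivity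
  have h3 := P_markov (TH G) t ht0 (fun A => (e:ℝ) + 3 ≤ nV G.edgeFinset A)
    (fun A => |nV G.edgeFinset A - (x - δ) * s|)
    (δ * s) hδs (fun A => abs_nonneg _) (fun A hA => by
      have := le_abs_self (nV G.edgeFinset A - (x - δ) * s)
      rw [hx] at hA
      have e4 : (x - δ) * s = x * s - δ * s := by ring
      linarith) G.edgeFinset
  have h4 : P (LH (TH G)) t (fun A => |nV G.edgeFinset A - (x - δ) * s|) G.edgeFinset / (δ * s) ≤
      η / δ := by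
    rw [div_le_div_iff₀ hδs hδ]
    have := mul_le_mul_of_nonneg_right hD1 hδ.le
    unfold Dv at this
    linarith
  have h5 : P (LH (TH G)) t (fun A => |nlive (TH G) A - g|) G.edgeFinset /
      (fL Λ (x - 2 * δ) * s - θ) ≤ ((fL Λ x - fL Λ (x - 2 * δ)) * s + 6 * η * s * C / δ) /
      (fL Λ (x - 2 * δ) * s - θ) := div_le_div_of_nonneg_right g3 hc.le
  linarith

end Vale.Agent.P046.H822
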