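import Vale.Agent.P046.H822.Time

/-!
The fixed-time estimate at a typical graph of a high level.
-/

set_option autoImplicit false

open scoped Classical
open Finset

namespace Vale.Agent.P046.H822

open Vale.Agent.P046 Vale.Agent.P046.C Vale.Agent.P046.Lv
open Vale.Agent.P046.K (Hyp zd wd deg)
open Vale.Agent.P046.S (P LH MaxDeg Sep nlive ldeg mon EnergyU)

/-- the conclusion of the fixed-time theorem for fixed parameters -/
def HT (T M ε D δ : ℝ) (Δ K₀ N₀ : ℕ) : Prop :=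
  ∀ (α : Type) [Fintype α] (V0 W : Finset α) (H0 : Finset (Finset α)), Hyp V0 H0 → W ⊆ V0 →
      Hyp W (H0.filter (fun h => h ⊆ W)) →
      MaxDeg (H0.filter (fun h => h ⊆ W)) Δ → Sep K₀ W (H0.filter (fun h => h ⊆ W)) →
      N₀ ≤ W.card →
      ∑ v ∈ W, (min (zd (H0.filter (fun h => h ⊆ W)) D v ^ 4)
          (zd (H0.filter (fun h => h ⊆ W)) D v ^ 2) +
        min (wd (H0.filter (fun h => h ⊆ W)) D v ^ 2) |wd (H0.filter (fun h => h ⊆ W)) D v|) ≤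
        W.card * D ^ (-(19 / 10 : ℝ)) →
      ((V0 \ W).card : ℝ) + (∑ v ∈ V0 \ W, ldeg H0 V0 v) / D ≤ δ * V0.card →
      ∀ t ∈ Set.Icc (0:ℝ) T, Real.sqrt (2 * D) ≤ M * rt D t →
      Dv H0 V0 t (V0.card / rt D t) ≤ ε * (V0.card / Real.sqrt (2 * D))

section generic

variable {α : Type} [Fintype α]

/-- the form used for the cleaned hypergraph -/
lemma HT_clean (T M ε D δ A : ℝ) (Δ K₀ N₀ : ℕ) (h : HT T M ε D δ Δ K₀ N₀)
    (V0 : Finset α) (H0 : Finset (Finset α)) (B : Finset α) (h0 : Hyp V0 H0)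
    (h1 : Hyp (keep V0 H0 B A) (cleaned V0 H0 B A))
    (h2 : cleaned V0 H0 B A = K.live H0 (keep V0 H0 B A))
    (h3 : ∀ v, (deg (cleaned V0 H0 B A) v : ℝ) ≤ A) (hΔ : A ≤ Δ)
    (h4 : Sep K₀ (keep V0 H0 B A) (cleaned V0 H0 B A))
    (h5 : N₀ ≤ (keep V0 H0 B A).card)
    (h6 : ∑ v ∈ keep V0 H0 B A, (min (zd (cleaned V0 H0 B A) D v ^ 4)
        (zd (cleaned V0 H0 B A) D v ^ 2) +
        min (wd (cleaned V0 H0 B A) D v ^ 2) |wd (cleaned V0 H0 B A) D v|) ≤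
        (keep V0 H0 B A).card * D ^ (-(19 / 10 : ℝ)))
    (h7 : ∑ v ∈ delSet V0 H0 B A, (1 + (deg H0 v : ℝ) / D) ≤ δ * V0.card)
    (t : ℝ) (h8 : t ∈ Set.Icc (0:ℝ) T) (h9 : Real.sqrt (2 * D) ≤ M * rt D t) :
    Dv H0 V0 t (V0.card / rt D t) ≤ ε * (V0.card / Real.sqrt (2 * D)) := by
  have e1 : H0.filter (fun h => h ⊆ keep V0 H0 B A) = cleaned V0 H0 B A := by
    rw [h2]
    rfl
  have hsub : delSet V0 H0 B A ⊆ V0 := Finset.filter_subset _ _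
  have e2 : V0 \ keep V0 H0 B A = delSet V0 H0 B A := by
    unfold keep
    rw [Finset.sdiff_sdiff_eq_self hsub]
  have e3 : ∀ v, ldeg H0 V0 v = (deg H0 v : ℝ) := by
    intro v
    unfold ldeg deg K.star
    rw [Finset.card_filter, Nat.cast_sum]
    refine Finset.sum_congr rfl fun k hk => ?_
    by_cases hv : v ∈ k
    · rw [if_pos hv, if_pos ⟨h0.sub k hk, hv⟩, Nat.cast_one]
    · rw [if_neg hv, if_neg (fun h' => hv h'.2), Nat.cast_zero]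
  refine h α V0 (keep V0 H0 B A) H0 h0 (keep_sub V0 H0 B A) ?_ ?_ ?_ h5 ?_ ?_ t h8 h9
  · rw [e1]; exact h1
  · rw [e1]
    intro v
    have := (h3 v).trans hΔ
    exact_mod_cast this
  · rw [e1]; exact h4
  · rw [e1]; exact h6
  · rw [e2]
    have e4 : ((delSet V0 H0 B A).card : ℝ) + (∑ v ∈ delSet V0 H0 B A, ldeg H0 V0 v) / D =
        ∑ v ∈ delSet V0 H0 B A, (1 + (deg H0 v : ℝ) / D) := by
      rw [Finset.sum_add_distrib, Finset.sum_const, nsmul_eq_mul, mul_one, Finset.sum_div]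
      congr 1
      exact Finset.sum_congr rfl fun v _ => by rw [e3 v]
    rw [e4]
    exact h7

end generic

variable {n : ℕ}

/-- the fixed-time estimate at one graph -/
lemma per_graph_t (T M ε D δ A Λ : ℝ) (Δ K₀ N₀ : ℕ) (G : SimpleGraph (Fin n)) (hn : 0 < n)
    (hE : 0 < numEdges G) (hD : C.cc G = D) (h : HT T M ε D δ Δ K₀ N₀)
    (B : Finset (Sym2 (Fin n))) (hs : M2.Sparse (2 * K₀) (G.edgeFinset \ B)) (hΔ : A ≤ Δ)
    (hN : (N₀ : ℝ) ≤ (numEdges G : ℝ) / 2)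
    (hw : 2 * A * B.card + 6e23 * Λ * numEdges G / A ≤ δ * numEdges G)
    (hc : Clean G D A Λ B) (t : ℝ) (ht : t ∈ Set.Icc (0:ℝ) T)
    (hM : Real.sqrt (2 * C.cc G) ≤ M * rt (C.cc G) t) :
    Dv (K.TH G) G.edgeFinset t ((numEdges G : ℝ) / rt (C.cc G) t) ≤ ε * xn n := by
  obtain ⟨c1, c2, c3, c4, c5, c6⟩ := hc
  have h1 := HT_clean T M ε D δ A Δ K₀ N₀ h G.edgeFinset (K.TH G) B (Vale.Agent.P046.A.TH_hyp G) c1 c2 c3 hΔ (by
      apply Vale.Agent.P046.A.sep_of_sparse (le_refl (2 * K₀))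
      · intro k hk
        rw [c2] at hk
        have hk2 := live_sub _ _ hk
        unfold K.TH at hk2
        rw [Finset.mem_image] at hk2
        obtain ⟨t, ht, rfl⟩ := hk2
        unfold triangles at ht
        rw [SimpleGraph.mem_cliqueFinset_iff] at ht
        exact ⟨t, ht.card_eq, rfl⟩
      · intro k hk
        exact c1.sub k hk
      · exact sparse_link (2 * K₀) G B hs A) (by
      have := hN.trans c6
      exact_mod_cast this) c4 (c5.trans hw) t ht (by rw [← hD]; exact hM)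
  rw [← hD, xn_eq G hn hE] at h1
  exact h1

/-- the estimate at one graph with all constants -/
lemma good_graph_t {n : ℕ} (T M ε δ A Λ K1 ds D1 s : ℝ) (e1 K₀ N₀ : ℕ)
    (G : SimpleGraph (Fin n))
    (hn : 0 < n) (hε : 0 < ε) (hs : (n : ℝ) ^ (3 / 2 : ℝ) = s) (hs0 : 0 < s)
    (hK1 : 1 ≤ K1) (hD1 : D1 ≤ 4 * K1 ^ 2)
    (hh : ∀ D ∈ Set.Icc D1 (16 * K1 ^ 2), HT T M ε D δ ⌈A⌉₊ K₀ N₀)
    (hl : ∀ D A' : ℝ, D1 ≤ D → 3 * D ≤ A' → ∀ (m : ℕ) (G' : SimpleGraph (Fin m)), cc G' = D →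
      FFc G' ≤ Λ * numEdges G' / D ^ 2 → ∀ B : Finset (Sym2 (Fin m)),
      A' ^ 2 * B.card ≤ numEdges G' → Clean G' D A' Λ B)
    (hA : 48 * K1 ^ 2 ≤ A) (hAδ : 12e23 * Λ ≤ δ * A)
    (hd2 : A ^ 2 * ds ≤ 1) (hd3 : 4 * A * ds ≤ δ) (hds : 0 ≤ ds)
    (he1 : K1 * s ≤ e1) (he2 : (e1 : ℝ) ≤ 2 * K1 * s) (hN₀ : (N₀ : ℝ) ≤ (e1 : ℝ) / 2)
    (h1 : numEdges G = e1)
    (h2 : FFc G ≤ Λ * e1 / (4 * (e1:ℝ) ^ 2 / (n:ℝ) ^ 3) ^ 2)
    (B : Finset (Sym2 (Fin n))) (hB : (B.card : ℝ) ≤ ds * s)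
    (hsp : M2.Sparse (2 * K₀) (G.edgeFinset \ B))
    (t : ℝ) (ht : t ∈ Set.Icc (0:ℝ) T)
    (hM : Real.sqrt (2 * C.cc G) ≤ M * rt (C.cc G) t) :
    Dv (K.TH G) G.edgeFinset t ((numEdges G : ℝ) / rt (C.cc G) t) ≤ ε * s := by
  have hs2 : s ^ 2 = (n : ℝ) ^ 3 := by rw [← hs]; exact C.Fi.s_sq n
  have hN1 : (numEdges G : ℝ) = e1 := by exact_mod_cast h1
  have he0 : (0:ℝ) < e1 := lt_of_lt_of_le (by positivity) he1
  have hcc : cc G = 4 * (e1:ℝ) ^ 2 / (n:ℝ) ^ 3 := by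
    unfold cc
    rw [hN1]
  have hD4 : 4 * K1 ^ 2 ≤ cc G := by
    rw [hcc, ← hs2, le_div_iff₀ (by positivity)]
    have := pow_le_pow_left₀ (by positivity) he1 2
    calc 4 * K1 ^ 2 * s ^ 2 = 4 * (K1 * s) ^ 2 := by ring
      _ ≤ _ := by linarith only [this]
  have hD16 : cc G ≤ 16 * K1 ^ 2 := by
    rw [hcc, ← hs2, div_le_iff₀ (by positivity)]
    have := pow_le_pow_left₀ (by positivity) he2 2
    calc 4 * (e1:ℝ) ^ 2 ≤ 4 * (2 * K1 * s) ^ 2 := by linarith only [this]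
      _ = 16 * K1 ^ 2 * s ^ 2 := by ring
  have hA0 : 0 < A := lt_of_lt_of_le (by positivity) hA
  have hse : s ≤ e1 := by
    have : 1 * s ≤ K1 * s := mul_le_mul_of_nonneg_right hK1 hs0.le
    linarith only [he1, this]
  have hb0 : (0:ℝ) ≤ B.card := Nat.cast_nonneg _
  have hAB : A ^ 2 * B.card ≤ numEdges G := by
    rw [hN1]
    calc A ^ 2 * (B.card : ℝ) ≤ A ^ 2 * (ds * s) := mul_le_mul_of_nonneg_left hB (by positivity)
      _ = (A ^ 2 * ds) * s := by ring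
      _ ≤ 1 * s := mul_le_mul_of_nonneg_right hd2 hs0.le
      _ ≤ e1 := by linarith only [hse]
  have hF : FFc G ≤ Λ * numEdges G / (cc G) ^ 2 := by
    rw [hN1, hcc]; exact h2
  have hc := hl (cc G) A (by linarith only [hD1, hD4]) (by linarith only [hA, hD16]) n G rfl hF B hAB
  have hw : 2 * A * B.card + 6e23 * Λ * numEdges G / A ≤ δ * numEdges G := by
    rw [hN1]
    have w1 : 2 * A * (B.card : ℝ) ≤ δ / 2 * e1 := by
      calc 2 * A * (B.card : ℝ) ≤ 2 * A * (ds * s) := mul_le_mul_of_nonneg_left hB (by positivity)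
        _ = (4 * A * ds) / 2 * s := by ring
        _ ≤ δ / 2 * s := mul_le_mul_of_nonneg_right (by linarith only [hd3]) hs0.le
        _ ≤ δ / 2 * e1 := mul_le_mul_of_nonneg_left hse (by
            have : 0 ≤ 4 * A * ds := by (clear * - hA0 hds; positivity)
            linarith only [hd3, this])
    have w2 : 6e23 * Λ * e1 / A ≤ δ / 2 * e1 := by
      rw [div_le_iff₀ hA0]
      have := mul_le_mul_of_nonneg_right hAδ he0.le
      linarith only [this]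
    linarith only [w1, w2]
  have h3 := per_graph_t T M ε (cc G) δ A Λ ⌈A⌉₊ K₀ N₀ G hn (by
      have : (0:ℝ) < numEdges G := by rw [hN1]; exact he0
      exact_mod_cast this) rfl (hh (cc G) ⟨by linarith only [hD1, hD4], hD16⟩) B hsp (Nat.le_ceil A)
      (by rw [hN1]; exact hN₀) hw hc t ht hM
  refine h3.trans ?_
  have := (xn_le n).2
  rw [hs] at this
  exact mul_le_mul_of_nonneg_left this hε.le

/-- the fixed-time estimate holds at a typical graph of a high level -/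
theorem level_main (T : ℝ) (hT : 0 < T) (M : ℝ) (hM : 0 < M) (κ : ℝ) (hK : 1 ≤ κ)
    (ε : ℝ) (hε : 0 < ε) : ∃ n0 : ℕ, ∀ n : ℕ, n0 ≤ n → ∃ k1 e1 : ℕ,
    ∃ b : SimpleGraph (Fin n) → ℝ, (∀ G, 0 ≤ b G) ∧ V b k1 (⊤ : SimpleGraph (Fin n)) ≤ ε ∧
      n.choose 2 = e1 + 3 * k1 ∧ κ * (n : ℝ) ^ (3 / 2 : ℝ) ≤ e1 ∧
    ∀ G : SimpleGraph (Fin n), b G < 1 → numEdges G = e1 ∧
      ∀ t ∈ Set.Icc (0:ℝ) T, Real.sqrt (2 * C.cc G) ≤ M * rt (C.cc G) t →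
        Dv (K.TH G) G.edgeFinset t ((numEdges G : ℝ) / rt (C.cc G) t) ≤
          ε * (n : ℝ) ^ (3 / 2 : ℝ) := by
  have hE : EnergyU := Vale.Agent.P046.K.energyU
  obtain ⟨L, hL⟩ : ∃ L : ℝ, L = 64 / ε := ⟨_, rfl⟩
  have hL0 : 0 < L := by rw [hL]; positivity
  obtain ⟨Λ, hΛ⟩ : ∃ Λ : ℝ, Λ = L * 1e60 := ⟨_, rfl⟩
  have hΛ0 : 0 ≤ Λ := by rw [hΛ]; positivity
  obtain ⟨Dh, hDh, hg1⟩ := time_final hE T hT M hM ε hε
  obtain ⟨Dl, hDl, hl⟩ := level_data Λ hΛ0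
  obtain ⟨K2, hK2, hlev⟩ := level_event L hL0
  obtain ⟨K1, hK1⟩ : ∃ K1 : ℝ, K1 = K2 + Dh + Dl + κ := ⟨_, rfl⟩
  obtain ⟨n1, hn1⟩ := hlev K1 (by linarith only [hDh, hDl, hK1, hK])
  have hK11 : 1 ≤ K1 := by linarith
  have hK1D : Dh + Dl ≤ 4 * K1 ^ 2 := by
    have h1 : Dh + Dl ≤ K1 := by linarith
    nlinarith only [h1, hK11]
  obtain ⟨δ, hδ, hg2⟩ := hg1 (16 * K1 ^ 2) (by linarith only [hDh, hDl, hK1D])
  obtain ⟨A, hA⟩ : ∃ A : ℝ, A = 48 * K1 ^ 2 + 12e23 * Λ / δ := ⟨_, rfl⟩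
  have hq : 0 ≤ 12e23 * Λ / δ := by positivity
  have hA0 : 0 < A := by
    have : 0 < 48 * K1 ^ 2 := by positivity
    linarith only [hDh, hDl, hK1D, hA, hq]
  have hAδ : 12e23 * Λ ≤ δ * A := by
    have : 12e23 * Λ = δ * (12e23 * Λ / δ) := by field_simp
    rw [this]
    apply mul_le_mul_of_nonneg_left _ hδ.le
    have : 0 < 48 * K1 ^ 2 := by positivity
    linarith only [hDh, hDl, hK1D, hA]
  obtain ⟨K₀, N₀, hg3⟩ := hg2 ⌈A⌉₊
  obtain ⟨ds, hds0, hds1, hds2, hds3⟩ := choose_ds ε A δ hε hA0 hδ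
  obtain ⟨n2, hn2⟩ := M2.sparse (2 * K₀) ds (2 * K1) hds0
  obtain ⟨p0, hp0⟩ : ∃ p0 : ℝ, p0 = 2 + K1 := ⟨_, rfl⟩
  refine ⟨n1 + n2 + 2 * N₀ + 1 + ⌈p0 ^ 1200⌉₊, fun n hn => ?_⟩
  obtain ⟨p, hpnn, hN⟩ := exists_p n
  have hbig : p0 ^ 1200 ≤ (n:ℝ) := by
    refine (Nat.le_ceil _).trans ?_
    have : ⌈p0 ^ 1200⌉₊ ≤ n := by omega
    exact_mod_cast this
  have hp := p_large n p p0 hpnn hN hbig
  have hnpos : 0 < n := by omega
  have hn1' : (1:ℝ) ≤ n := by exact_mod_cast hnpos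
  have hs : (n:ℝ) ^ (3 / 2 : ℝ) = p ^ 1800 := by
    rw [hN, ← Real.rpow_natCast p 1200, ← Real.rpow_mul hpnn, ← Real.rpow_natCast p 1800]
    norm_num
  obtain ⟨e1, k1, hk, he1, he2⟩ := choose_level n p K1 (by linarith only [hDh, hDl, hK2, hK1, hp0, hp, hK]) hN hK11 (by linarith only [hp0, hp])
  rw [← hs] at he1 he2
  obtain ⟨s, hsd⟩ : ∃ s : ℝ, (n : ℝ) ^ (3 / 2 : ℝ) = s := ⟨_, rfl⟩
  have hs0 : 0 < s := by rw [← hsd]; exact Real.rpow_pos_of_pos (by linarith only [hn1']) _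
  have hsn : (n:ℝ) ≤ s := by
    rw [← hsd]
    calc (n:ℝ) = (n:ℝ) ^ (1:ℝ) := (Real.rpow_one _).symm
      _ ≤ (n:ℝ) ^ (3 / 2 : ℝ) := Real.rpow_le_rpow_of_exponent_le hn1' (by norm_num)
  have hb1 := hn1 n (by omega) e1 k1 hk he1 (by linarith only [he2])
  have hb2 := hn2 n (by omega) e1 k1 hk (by linarith only [he2])
  rw [hsd] at he1 he2 hb2
  refine ⟨k1, e1, fun G => levBad FFc e1 (L * 1e60 * e1 / (4 * (e1:ℝ) ^ 2 / (n:ℝ) ^ 3) ^ 2) G +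
    M2.notSparse (2 * K₀) (ds * s) G, fun G => add_nonneg (levBad_nonneg _ _ _ _)
      (notSparse_nonneg _ _ _), ?_, hk, ?_, ?_⟩
  · rw [LB.V_add_fun]
    have : (32:ℝ) / L = ε / 2 := by rw [hL]; field_simp; norm_num
    rw [this] at hb1
    linarith only [hds1, hb1, hb2]
  · rw [hsd]
    have : κ * s ≤ K1 * s := mul_le_mul_of_nonneg_right (by linarith) hs0.le
    linarith
  · intro G hG
    beta_reduce at hG
    have g1 := levBad_nonneg (FFc (n := n)) e1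
      (L * 1e60 * e1 / (4 * (e1:ℝ) ^ 2 / (n:ℝ) ^ 3) ^ 2) G
    have g2 := notSparse_nonneg (2 * K₀) (ds * s) G
    obtain ⟨g3, g4⟩ := levBad_zero _ _ _ G (by linarith only [hG, g2] : levBad (FFc (n := n)) e1
      (L * 1e60 * e1 / (4 * (e1:ℝ) ^ 2 / (n:ℝ) ^ 3) ^ 2) G < 1)
    obtain ⟨B, -, hB2, hB3⟩ := notSparse_zero (2 * K₀) (ds * s) G (by linarith only [hG, g1])
    rw [hsd]
    rw [← hΛ] at g4
    refine ⟨g3, fun t ht hrt => ?_⟩
    refine good_graph_t T M ε δ A Λ K1 ds (Dh + Dl) s e1 K₀ N₀ G hnpos hε hsd hs0 hK11 hK1D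
      (fun D hD => hg3 D ⟨by linarith only [hDl, hD, hD.1], hD.2⟩)
      (fun D A' hD hA' m G' hc hF B hB => hl D A' (by linarith only [hDh, hD]) hA' m G' hc hF B hB)
      (by linarith only [hA, hq]) hAδ hds2 hds3 hds0.le he1 (by linarith only [he2]) ?_ g3 g4 B hB2 hB3
      t ht hrt
    have h5 : (2 * N₀ : ℕ) ≤ n := by omega
    have h6 : (2:ℝ) * N₀ ≤ n := by exact_mod_cast h5
    have h7 : s ≤ e1 := by
      have : 1 * s ≤ K1 * s := mul_le_mul_of_nonneg_right hK11 hs0.le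
      linarith only [he1, this]
    linarith only [hsn, h6, h7]

end Vale.Agent.P046.H822
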