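import Vale.Agent.P046.H822.Tri

/-!
The trajectory of the process in the critical window.
-/

set_option autoImplicit false

open scoped Classical
open Finset

namespace Vale.Agent.P046.H822

open Vale.Agent.P046

variable {n : ℕ}

lemma g0_nonpos (x : ℝ) (hx : 0 ≤ x) (h : 8 * x ^ 2 ≤ 1) : g0 x ≤ 0 := by
  unfold g0
  have : 4 / 3 * x ^ 3 - x / 6 = x * (8 * x ^ 2 - 1) / 6 := by ring
  rw [this]
  have := mul_nonneg hx (by linarith : 0 ≤ 1 - 8 * x ^ 2)
  linarith

lemma g0_nonneg (x : ℝ) (hx : 0 ≤ x) (h : 1 ≤ 8 * x ^ 2) : 0 ≤ g0 x := by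
  unfold g0
  have : 4 / 3 * x ^ 3 - x / 6 = x * (8 * x ^ 2 - 1) / 6 := by ring
  rw [this]
  have := mul_nonneg hx (by linarith : 0 ≤ 8 * x ^ 2 - 1)
  linarith

lemma Tge_anti (θ θ' : ℝ) (h : θ ≤ θ') (G : SimpleGraph (Fin n)) : Tge θ' G ≤ Tge θ G := by
  unfold Tge
  by_cases h1 : θ' ≤ ((triangles G).card : ℝ)
  · rw [if_pos h1, if_pos (h.trans h1)]
  · rw [if_neg h1]
    split_ifs <;> norm_num

/-- probabilities as values -/
lemma prob_eq (k : ℕ) (S : Set (SimpleGraph (Fin n))) (G : SimpleGraph (Fin n)) :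
    ((run k G).toOuterMeasure S).toReal = V (fun G' => if G' ∈ S then 1 else 0) k G :=
  toReal_toOuterMeasure _ _

lemma two_le_choose : ∃ n0 : ℕ, ∀ n : ℕ, n0 ≤ n →
    2 * (n : ℝ) ^ (3 / 2 : ℝ) ≤ (n.choose 2 : ℕ) := by
  obtain ⟨n0, h⟩ := level_main 1 one_pos 1 one_pos 2 (by norm_num) 1 one_pos
  refine ⟨n0, fun n hn => ?_⟩
  obtain ⟨k1, e1, b, -, -, h3, h4, -⟩ := h n hn
  refine h4.trans ?_
  have : e1 ≤ n.choose 2 := by omega
  exact_mod_cast this

/-- the number of triangles in the critical window -/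
theorem tri_clause (L ε : ℝ) (hε : 0 < ε) : ∃ n0 : ℕ, ∀ n : ℕ, n0 ≤ n → ∀ k : ℕ,
    3 * k ≤ n.choose 2 → ∀ x : ℝ, x = ((n.choose 2 : ℝ) - 3 * k) / (n : ℝ) ^ (3 / 2 : ℝ) →
    x ≤ L →
    ((run k (⊤ : SimpleGraph (Fin n))).toOuterMeasure
      {G | ε ≤ |((triangles G).card : ℝ) / (n : ℝ) ^ (3 / 2 : ℝ) -
        max 0 (4 / 3 * x ^ 3 - x / 6)|}).toReal ≤ ε := by
  obtain ⟨c, hc⟩ : ∃ c : ℝ, c = 1 / (2 * √2) := ⟨_, rfl⟩
  have hc0 : 0 < c := by rw [hc]; positivity
  have hc2 : 8 * c ^ 2 = 1 := by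
    rw [hc, div_pow, mul_pow, Real.sq_sqrt (by norm_num)]
    norm_num
  have hc1 : c ≤ 1 / 2 := by nlinarith
  obtain ⟨ε₂, hε₂⟩ : ∃ ε₂ : ℝ, ε₂ = min ε 1 / 2 := ⟨_, rfl⟩
  have he0 : 0 < ε₂ := by rw [hε₂]; positivity
  have he1 : 2 * ε₂ ≤ ε := by rw [hε₂]; have := min_le_left ε 1; linarith
  have he2 : ε₂ ≤ 1 := by rw [hε₂]; have := min_le_right ε 1; linarith
  obtain ⟨R, hR⟩ : ∃ R : ℝ, R = max L 0 + 2 := ⟨_, rfl⟩
  have hRL : L ≤ R := by rw [hR]; have := le_max_left L 0; linarith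
  have hR2 : 2 ≤ R := by rw [hR]; have := le_max_right L 0; linarith
  obtain ⟨γ, hγ⟩ : ∃ γ : ℝ, γ = min (1 / 2) (ε₂ / (8 * R ^ 2)) := ⟨_, rfl⟩
  have hγ0 : 0 < γ := by rw [hγ]; positivity
  have hγ1 : γ ≤ 1 / 2 := by rw [hγ]; exact min_le_left _ _
  have hγ2 : 4 * R ^ 2 * (2 * γ) ≤ ε₂ := by
    have h : γ ≤ ε₂ / (8 * R ^ 2) := by rw [hγ]; exact min_le_right _ _
    rw [le_div_iff₀ (by positivity)] at h
    linarith
  obtain ⟨n1, hn1⟩ := tri_main R ε₂ γ (by linarith) he0 he2 hγ0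
  obtain ⟨n2, hn2⟩ := two_le_choose
  refine ⟨n1 + n2 + 1 + ⌈3 / γ⌉₊, fun n hn k hk x hx hxL => ?_⟩
  rw [prob_eq]
  have hm1 := hn1 n (by omega)
  have hm2 := hn2 n (by omega)
  have hn1' : (1:ℝ) ≤ n := by
    have : 1 ≤ n := by omega
    exact_mod_cast this
  obtain ⟨s, hs⟩ : ∃ s : ℝ, (n : ℝ) ^ (3 / 2 : ℝ) = s := ⟨_, rfl⟩
  have hsn : (n:ℝ) ≤ s := by
    rw [← hs]
    calc (n:ℝ) = (n:ℝ) ^ (1:ℝ) := (Real.rpow_one _).symm
      _ ≤ (n:ℝ) ^ (3 / 2 : ℝ) := Real.rpow_le_rpow_of_exponent_le hn1' (by norm_num)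
  have hs0 : 0 < s := by linarith
  have hsγ : 3 ≤ γ * s := by
    have h1 : 3 / γ ≤ n := by
      refine (Nat.le_ceil _).trans ?_
      have : ⌈3 / γ⌉₊ ≤ n := by omega
      exact_mod_cast this
    have h2 : 3 / γ ≤ s := h1.trans hsn
    rw [div_le_iff₀ hγ0] at h2
    linarith
  rw [hs] at hm1 hm2 hx ⊢
  obtain ⟨e, he⟩ : ∃ e : ℕ, n.choose 2 = e + 3 * k := ⟨n.choose 2 - 3 * k, by omega⟩
  have hex : (e:ℝ) = x * s := by
    rw [hx, div_mul_cancel₀ _ hs0.ne']
    have : (n.choose 2 : ℝ) = (e:ℝ) + 3 * k := by exact_mod_cast he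
    rw [this]
    ring
  have hx0 : 0 ≤ x := by
    have h1 : (0:ℝ) ≤ x * s := by rw [← hex]; exact Nat.cast_nonneg _
    exact nonneg_of_mul_nonneg_left h1 hs0
  have hg : 4 / 3 * x ^ 3 - x / 6 = g0 x := rfl
  rw [hg]
  rcases le_or_gt (c + γ) x with h | h
  · -- above the final level
    have hg1 : 0 ≤ g0 x := g0_nonneg x hx0 (by nlinarith)
    rw [max_eq_right hg1]
    obtain ⟨h1, h2⟩ := hm1 e k he x hex (by rw [← hc]; exact h) (hxL.trans hRL)
    have h3 := LB.V_mono (fun G' : SimpleGraph (Fin n) => if G' ∈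
      {G : SimpleGraph (Fin n) | ε ≤ |((triangles G).card : ℝ) / s - g0 x|} then (1:ℝ) else 0)
      (fun G' => Tge ((g0 x + ε₂) * s) G' + Tle ((g0 x - ε₂) * s) G') (fun G' => by
        by_cases hG : G' ∈ {G : SimpleGraph (Fin n) | ε ≤ |((triangles G).card : ℝ) / s - g0 x|}
        · rw [if_pos hG]
          have hG' : ε ≤ |((triangles G').card : ℝ) / s - g0 x| := hG
          rcases le_abs.mp hG' with h4 | h4
          · have h5 : (g0 x + ε₂) * s ≤ ((triangles G').card : ℝ) := by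
              rw [← le_div_iff₀ hs0]
              linarith
            have h6 : Tge ((g0 x + ε₂) * s) G' = 1 := by unfold Tge; rw [if_pos h5]
            have := Tle_nonneg ((g0 x - ε₂) * s) G'
            linarith
          · have h5 : ((triangles G').card : ℝ) ≤ (g0 x - ε₂) * s := by
              rw [← div_le_iff₀ hs0]
              linarith
            have h6 : Tle ((g0 x - ε₂) * s) G' = 1 := by unfold Tle; rw [if_pos h5]
            have := Tge_nonneg ((g0 x + ε₂) * s) G'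
            linarith
        · rw [if_neg hG]
          have := Tle_nonneg ((g0 x - ε₂) * s) G'
          have := Tge_nonneg ((g0 x + ε₂) * s) G'
          linarith) k (⊤ : SimpleGraph (Fin n))
    rw [LB.V_add_fun] at h3
    linarith
  · -- at or below the final level
    have hmax0 : 0 ≤ max 0 (g0 x) := le_max_left _ _
    have hgc : g0 c = 0 := by
      unfold g0
      have : 4 / 3 * c ^ 3 - c / 6 = c * (8 * c ^ 2 - 1) / 6 := by ring
      rw [this, hc2]
      ring
    have hRγ : 0 ≤ R ^ 2 * γ := by positivity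
    have hmax : max 0 (g0 x) ≤ ε₂ := by
      apply max_le he0.le
      rcases le_or_gt x c with h1 | h1
      · have := g0_nonpos x hx0 (by nlinarith)
        linarith
      · have h2 := g0_lip R c x hc0.le h1.le (by linarith)
        have h3 : 4 * R ^ 2 * (x - c) ≤ 4 * R ^ 2 * γ :=
          mul_le_mul_of_nonneg_left (by linarith) (by positivity)
        linarith
    have hex2 : ∃ l : ℕ, (c + γ) * s ≤ ((e + 3 * l : ℕ) : ℝ) := by
      refine ⟨k, ?_⟩
      rw [← he]
      refine le_trans ?_ hm2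
      exact mul_le_mul_of_nonneg_right (by linarith) hs0.le
    obtain ⟨l, hl1, hl2⟩ : ∃ l : ℕ, (c + γ) * s ≤ ((e + 3 * l : ℕ) : ℝ) ∧
        ∀ m < l, ¬ (c + γ) * s ≤ ((e + 3 * m : ℕ) : ℝ) :=
      ⟨Nat.find hex2, Nat.find_spec hex2, fun m hm => Nat.find_min hex2 hm⟩
    have hlk : l ≤ k := by
      by_contra hlt
      push Not at hlt
      apply hl2 k hlt
      rw [← he]
      refine le_trans ?_ hm2
      exact mul_le_mul_of_nonneg_right (by linarith) hs0.le
    have hl0 : l ≠ 0 := by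
      rintro rfl
      rw [Nat.mul_zero, Nat.add_zero, hex] at hl1
      have := le_of_mul_le_mul_right hl1 hs0
      linarith
    have hl3 : ((e + 3 * l : ℕ) : ℝ) < (c + γ) * s + 3 := by
      have h1 := hl2 (l - 1) (by omega)
      push Not at h1
      have h2 : ((e + 3 * l : ℕ) : ℝ) = ((e + 3 * (l - 1) : ℕ) : ℝ) + 3 := by
        have : e + 3 * l = e + 3 * (l - 1) + 3 := by omega
        rw [this]
        push_cast
        ring
      rw [h2]
      linarith
    obtain ⟨k0, hk0⟩ : ∃ k0, k = k0 + l := ⟨k - l, by omega⟩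
    obtain ⟨y, hy⟩ : ∃ y : ℝ, y = ((e + 3 * l : ℕ) : ℝ) / s := ⟨_, rfl⟩
    have hys : ((e + 3 * l : ℕ) : ℝ) = y * s := by rw [hy, div_mul_cancel₀ _ hs0.ne']
    have hy1 : c + γ ≤ y := by rw [hy, le_div_iff₀ hs0]; exact hl1
    have hy2 : y ≤ c + 2 * γ := by
      rw [hy, div_le_iff₀ hs0]
      have : (c + 2 * γ) * s = (c + γ) * s + γ * s := by ring
      linarith
    obtain ⟨h1, -⟩ := hm1 (e + 3 * l) k0 (by omega) y hys (by rw [← hc]; exact hy1)
      (by linarith)
    have h2 := g0_lip R c y hc0.le (by linarith) (by linarith)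
    have h3 : 4 * R ^ 2 * (y - c) ≤ 4 * R ^ 2 * (2 * γ) :=
      mul_le_mul_of_nonneg_left (by linarith) (by positivity)
    have h4 : (g0 y + ε₂) * s ≤ ε * s := mul_le_mul_of_nonneg_right (by linarith) hs0.le
    have h5 := LB.V_mono (fun G' : SimpleGraph (Fin n) => if G' ∈
      {G : SimpleGraph (Fin n) | ε ≤ |((triangles G).card : ℝ) / s - max 0 (g0 x)|}
        then (1:ℝ) else 0)
      (fun G' => Tge (ε * s) G') (fun G' => by
        by_cases hG : G' ∈ {G : SimpleGraph (Fin n) |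
            ε ≤ |((triangles G).card : ℝ) / s - max 0 (g0 x)|}
        · rw [if_pos hG]
          have hG' : ε ≤ |((triangles G').card : ℝ) / s - max 0 (g0 x)| := hG
          have hT : 0 ≤ ((triangles G').card : ℝ) / s := div_nonneg (Nat.cast_nonneg _) hs0.le
          rcases le_abs.mp hG' with h6 | h6
          · have h7 : ε * s ≤ ((triangles G').card : ℝ) := by
              rw [← le_div_iff₀ hs0]
              linarith
            unfold Tge
            rw [if_pos h7]
          · exfalso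
            linarith
        · rw [if_neg hG]
          exact Tge_nonneg _ _) k (⊤ : SimpleGraph (Fin n))
    rw [hk0, LB.V_add_steps (fun G' => Tge (ε * s) G')] at h5
    have h6 := LB.V_mono (V (fun G' : SimpleGraph (Fin n) => Tge (ε * s) G') l)
      (Tge ((g0 y + ε₂) * s)) (fun G' =>
        (V_le_self (fun G' => Tge (ε * s) G') (fun G t ht => Tge_remove (ε * s) G t ht) l G').trans
          (Tge_anti _ _ h4 G')) k0 (⊤ : SimpleGraph (Fin n))
    rw [hk0]
    linarith

/-- comparison along the reachable graphs -/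
lemma V_reach (k : ℕ) : ∀ (G : SimpleGraph (Fin n)) (f g : SimpleGraph (Fin n) → ℝ),
    (∀ G', (numEdges G' + 3 * k = numEdges G ∨
      (numEdges G ≤ numEdges G' + 3 * k ∧ ¬ (triangles G').Nonempty)) → f G' ≤ g G') →
    V f k G ≤ V g k G := by
  induction k with
  | zero =>
    intro G f g h
    rw [V_zero, V_zero]
    exact h G (Or.inl rfl)
  | succ k ih =>
    intro G f g h
    by_cases hT : (triangles G).Nonempty
    · have h5 : (0 : ℝ) < ((triangles G).card : ℝ) := by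
        exact_mod_cast Finset.card_pos.mpr hT
      rw [V_succ_of_nonempty _ _ _ hT, V_succ_of_nonempty _ _ _ hT]
      apply div_le_div_of_nonneg_right _ h5.le
      refine Finset.sum_le_sum fun t ht => ih _ f g fun G' hG' => h G' ?_
      have h6 := numEdges_removeTriangle G t ht
      rcases hG' with h7 | ⟨h7, h8⟩
      · left; omega
      · right; exact ⟨by omega, h8⟩
    · rw [V_of_empty f _ G hT, V_of_empty g _ G hT]
      exact h G (Or.inr ⟨by omega, hT⟩)

/-- a function which increases along the process -/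
lemma V_ge_self (F : SimpleGraph (Fin n) → ℝ)
    (hF : ∀ (G : SimpleGraph (Fin n)) (t : Finset (Fin n)), t ∈ triangles G →
      F G ≤ F (removeTriangle G t)) (k : ℕ) :
    ∀ G : SimpleGraph (Fin n), F G ≤ V F k G := by
  induction k with
  | zero =>
    intro G
    rw [V_zero]
  | succ k ih =>
    intro G
    by_cases hT : (triangles G).Nonempty
    · have h5 : (0 : ℝ) < ((triangles G).card : ℝ) := by
        exact_mod_cast Finset.card_pos.mpr hT
      rw [V_succ_of_nonempty _ _ _ hT, le_div_iff₀ h5]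
      calc F G * ((triangles G).card : ℝ) = ∑ _t ∈ triangles G, F G := by
            rw [Finset.sum_const, nsmul_eq_mul]
            ring
        _ ≤ ∑ t ∈ triangles G, V F k (removeTriangle G t) :=
            Finset.sum_le_sum fun t ht => (hF G t ht).trans (ih _)
    · rw [V_of_empty F _ G hT]

/-- the number of edges -/
theorem edge_clause (ε : ℝ) (hε : 0 < ε) : ∃ n0 : ℕ, ∀ n : ℕ, n0 ≤ n → ∀ k : ℕ,
    3 * k ≤ n.choose 2 → ∀ x : ℝ, x = ((n.choose 2 : ℝ) - 3 * k) / (n : ℝ) ^ (3 / 2 : ℝ) →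
    ((run k (⊤ : SimpleGraph (Fin n))).toOuterMeasure
      {G | ε ≤ |(numEdges G : ℝ) / (n : ℝ) ^ (3 / 2 : ℝ) -
        max x (1 / (2 * √2))|}).toReal ≤ ε := by
  obtain ⟨n1, hn1⟩ := Filter.eventually_atTop.mp
    ((tendsto_order.mp (Lv.prob_limit Lv.core ε hε)).2 ε hε)
  refine ⟨n1 + 1, fun n hn k hk x hx => ?_⟩
  have h1 := (hn1 n (by omega)).le
  obtain ⟨c, hc⟩ : ∃ c : ℝ, c = 1 / (2 * √2) := ⟨_, rfl⟩
  obtain ⟨s, hs⟩ : ∃ s : ℝ, (n : ℝ) ^ (3 / 2 : ℝ) = s := ⟨_, rfl⟩
  have hs0 : 0 < s := by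
    rw [← hs]
    apply Real.rpow_pos_of_pos
    have : 0 < n := by omega
    exact_mod_cast this
  rw [← hc] at h1 ⊢
  rw [hs] at h1 hx ⊢
  refine le_trans ?_ h1
  have e1 : finalGraph n = run (n.choose 2) (⊤ : SimpleGraph (Fin n)) := rfl
  rw [e1, prob_eq, prob_eq]
  obtain ⟨m, hm⟩ : ∃ m, n.choose 2 = k + m := ⟨n.choose 2 - k, by omega⟩
  have e2 : V (fun G' : SimpleGraph (Fin n) => if G' ∈ {G : SimpleGraph (Fin n) |
      ε ≤ |(numEdges G : ℝ) / s - c|} then (1:ℝ) else 0) (n.choose 2) ⊤ =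
      V (V (fun G' : SimpleGraph (Fin n) => if G' ∈ {G : SimpleGraph (Fin n) |
      ε ≤ |(numEdges G : ℝ) / s - c|} then (1:ℝ) else 0) m) k ⊤ := by
    rw [← LB.V_add_steps, ← hm]
  rw [e2]
  apply V_reach
  intro G hG
  rw [numEdges_top] at hG
  by_cases hmem : G ∈ {G : SimpleGraph (Fin n) | ε ≤ |(numEdges G : ℝ) / s - max x c|}
  swap
  · rw [if_neg hmem]
    have h2 := LB.V_mono (fun _ => (0:ℝ)) (fun G' : SimpleGraph (Fin n) => if G' ∈
      {G : SimpleGraph (Fin n) | ε ≤ |(numEdges G : ℝ) / s - c|} then (1:ℝ) else 0)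
      (fun G' => by split_ifs <;> norm_num) m G
    rw [LB.V_const] at h2
    exact h2
  rw [if_pos hmem]
  have hmem' : ε ≤ |(numEdges G : ℝ) / s - max x c| := hmem
  rcases hG with hG | ⟨hG, hT⟩
  · -- the process has not stopped
    have hxs : (numEdges G : ℝ) / s = x := by
      rw [hx]
      congr 1
      have : (numEdges G : ℝ) + 3 * k = (n.choose 2 : ℕ) := by exact_mod_cast hG
      linarith
    rw [hxs] at hmem'
    have hxc : x ≤ c - ε := by
      rcases le_or_gt c x with h2 | h2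
      · rw [max_eq_left h2, sub_self, abs_zero] at hmem'
        linarith
      · rw [max_eq_right h2.le, abs_sub_comm, abs_of_pos (by linarith)] at hmem'
        linarith
    have h3 := V_ge_self (fun G' : SimpleGraph (Fin n) =>
      if (numEdges G' : ℝ) / s ≤ c - ε then (1:ℝ) else 0) (fun G t ht => by
        have h4 : (numEdges (removeTriangle G t) : ℝ) + 3 = numEdges G := by
          exact_mod_cast numEdges_removeTriangle G t ht
        have h5 : (numEdges (removeTriangle G t) : ℝ) / s ≤ (numEdges G : ℝ) / s :=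
          div_le_div_of_nonneg_right (by linarith) hs0.le
        beta_reduce
        by_cases h6 : (numEdges G : ℝ) / s ≤ c - ε
        · rw [if_pos h6, if_pos (h5.trans h6)]
        · rw [if_neg h6]
          split_ifs <;> norm_num) m G
    beta_reduce at h3
    rw [if_pos (by rw [hxs]; exact hxc)] at h3
    refine h3.trans (LB.V_mono _ _ (fun G' => ?_) m G)
    by_cases h6 : (numEdges G' : ℝ) / s ≤ c - ε
    · rw [if_pos h6, if_pos]
      show ε ≤ |(numEdges G' : ℝ) / s - c|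
      rw [abs_sub_comm, abs_of_pos (by linarith)]
      linarith
    · rw [if_neg h6]
      split_ifs <;> norm_num
  · -- the process has stopped
    rw [V_of_empty _ _ _ hT, if_pos]
    show ε ≤ |(numEdges G : ℝ) / s - c|
    have hxs : x ≤ (numEdges G : ℝ) / s := by
      rw [hx]
      apply div_le_div_of_nonneg_right _ hs0.le
      have : ((n.choose 2 : ℕ) : ℝ) ≤ (numEdges G : ℝ) + 3 * k := by exact_mod_cast hG
      linarith
    refine hmem'.trans ?_
    rcases le_or_gt c x with h2 | h2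
    · rw [max_eq_left h2, abs_of_nonneg (by linarith), abs_of_nonneg (by linarith)]
      linarith
    · rw [max_eq_right h2.le]

end Vale.Agent.P046.H822
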