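import Vale.Agent.P046.H822.Time

/-!
The limiting trajectory of the number of edges as a function of time, and its slope.
-/

set_option autoImplicit false

namespace Vale.Agent.P046.H822

/-- `exp (-t)` at the time `t` at which `y` is reached -/
noncomputable def BB (Λ y : ℝ) : ℝ := 1 + 1 / (8 * Λ ^ 2) - 1 / (8 * y ^ 2)

/-- the time at which `y` is reached -/
noncomputable def tt (Λ y : ℝ) : ℝ := -Real.log (BB Λ y)

/-- the number of triangles when `y` is reached -/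
noncomputable def fL (Λ y : ℝ) : ℝ := 4 / 3 * y ^ 3 * BB Λ y

/-- the limit of `fL` -/
noncomputable def g0 (y : ℝ) : ℝ := 4 / 3 * y ^ 3 - y / 6

lemma fL_eq (Λ y : ℝ) (hΛ : 0 < Λ) (hy : 0 < y) : fL Λ y = g0 y + y ^ 3 / (6 * Λ ^ 2) := by
  unfold fL g0 BB
  field_simp
  ring

lemma BB_lt (Λ y1 y2 : ℝ) (h1 : 0 < y1) (h2 : y1 < y2) : BB Λ y1 < BB Λ y2 := by
  unfold BB
  have h3 : 8 * y1 ^ 2 < 8 * y2 ^ 2 := by nlinarith
  have h4 : 1 / (8 * y2 ^ 2) < 1 / (8 * y1 ^ 2) := by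
    apply one_div_lt_one_div_of_lt (by positivity) h3
  linarith

lemma BB_diff (Λ y1 y2 : ℝ) (h1 : 0 < y1) (h2 : 0 < y2) :
    (BB Λ y2 - BB Λ y1) * (8 * y1 ^ 2 * y2 ^ 2) = (y2 - y1) * (y1 + y2) := by
  unfold BB
  field_simp
  ring

lemma slope (Λ y1 y2 : ℝ) (h1 : 0 < y1) (h2 : y1 < y2) (hB : 0 < BB Λ y1) :
    tt Λ y2 < tt Λ y1 ∧ y2 - y1 ≤ 3 * (tt Λ y1 - tt Λ y2) * fL Λ y2 ∧
      3 * (tt Λ y1 - tt Λ y2) * fL Λ y1 ≤ y2 - y1 := by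
  have hlt := BB_lt Λ y1 y2 h1 h2
  have hy2 : 0 < y2 := h1.trans h2
  obtain ⟨B1, hB1⟩ : ∃ B1, B1 = BB Λ y1 := ⟨_, rfl⟩
  obtain ⟨B2, hB2⟩ : ∃ B2, B2 = BB Λ y2 := ⟨_, rfl⟩
  have hd := BB_diff Λ y1 y2 h1 hy2
  unfold tt fL
  rw [← hB1] at hB hlt hd ⊢
  rw [← hB2] at hlt hd ⊢
  have hB2p : 0 < B2 := hB.trans hlt
  have e1 : -Real.log B1 - -Real.log B2 = Real.log (B2 / B1) := by
    rw [Real.log_div hB2p.ne' hB.ne']
    ring
  rw [e1]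
  have hr : 0 < B2 / B1 := div_pos hB2p hB
  have u1 : Real.log (B2 / B1) ≤ B2 / B1 - 1 := Real.log_le_sub_one_of_pos hr
  have u2 : 1 - B1 / B2 ≤ Real.log (B2 / B1) := by
    have h := Real.log_le_sub_one_of_pos (div_pos hB hB2p)
    have e : Real.log (B1 / B2) = -Real.log (B2 / B1) := by
      rw [← Real.log_inv, inv_div]
    rw [e] at h
    linarith
  have hd0 : 0 < B2 - B1 := by linarith
  have hdy : 0 < y2 - y1 := by linarith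
  have v1 : (B2 - B1) ≤ Real.log (B2 / B1) * B2 := by
    have h := mul_le_mul_of_nonneg_right u2 hB2p.le
    have e : (1 - B1 / B2) * B2 = B2 - B1 := by field_simp
    rwa [e] at h
  have v2 : Real.log (B2 / B1) * B1 ≤ B2 - B1 := by
    have h := mul_le_mul_of_nonneg_right u1 hB.le
    have e : (B2 / B1 - 1) * B1 = B2 - B1 := by field_simp
    rwa [e] at h
  have w1 : y2 - y1 ≤ 4 * y2 ^ 3 * (B2 - B1) := by
    have h : (y2 - y1) * (y1 + y2) ≤ 4 * y2 ^ 3 * (B2 - B1) * (y1 + y2) := by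
      rw [← hd]
      have h3 : 8 * y1 ^ 2 * y2 ^ 2 ≤ 4 * y2 ^ 3 * (y1 + y2) := by
        have h4 : 0 ≤ 4 * y2 ^ 2 := by positivity
        have h5 : 2 * y1 ^ 2 ≤ y2 * (y1 + y2) := by nlinarith
        calc 8 * y1 ^ 2 * y2 ^ 2 = 4 * y2 ^ 2 * (2 * y1 ^ 2) := by ring
          _ ≤ 4 * y2 ^ 2 * (y2 * (y1 + y2)) := mul_le_mul_of_nonneg_left h5 h4
          _ = _ := by ring
      calc (B2 - B1) * (8 * y1 ^ 2 * y2 ^ 2) ≤ (B2 - B1) * (4 * y2 ^ 3 * (y1 + y2)) :=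
            mul_le_mul_of_nonneg_left h3 hd0.le
        _ = _ := by ring
    exact le_of_mul_le_mul_right h (by linarith)
  have w2 : 4 * y1 ^ 3 * (B2 - B1) ≤ y2 - y1 := by
    have h : 4 * y1 ^ 3 * (B2 - B1) * (y1 + y2) ≤ (y2 - y1) * (y1 + y2) := by
      rw [← hd]
      have h3 : 4 * y1 ^ 3 * (y1 + y2) ≤ 8 * y1 ^ 2 * y2 ^ 2 := by
        have h4 : 0 ≤ 4 * y1 ^ 2 := by positivity
        have h5 : y1 * (y1 + y2) ≤ 2 * y2 ^ 2 := by nlinarith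
        calc 4 * y1 ^ 3 * (y1 + y2) = 4 * y1 ^ 2 * (y1 * (y1 + y2)) := by ring
          _ ≤ 4 * y1 ^ 2 * (2 * y2 ^ 2) := mul_le_mul_of_nonneg_left h5 h4
          _ = _ := by ring
      calc 4 * y1 ^ 3 * (B2 - B1) * (y1 + y2) = (B2 - B1) * (4 * y1 ^ 3 * (y1 + y2)) := by ring
        _ ≤ _ := mul_le_mul_of_nonneg_left h3 hd0.le
    exact le_of_mul_le_mul_right h (by linarith)
  have hlog : 0 < Real.log (B2 / B1) := by
    apply Real.log_pos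
    rw [lt_div_iff₀ hB]
    linarith
  refine ⟨by linarith [e1], ?_, ?_⟩
  · calc y2 - y1 ≤ 4 * y2 ^ 3 * (B2 - B1) := w1
      _ ≤ 4 * y2 ^ 3 * (Real.log (B2 / B1) * B2) :=
          mul_le_mul_of_nonneg_left v1 (by positivity)
      _ = _ := by ring
  · calc 3 * Real.log (B2 / B1) * (4 / 3 * y1 ^ 3 * B1) =
          4 * y1 ^ 3 * (Real.log (B2 / B1) * B1) := by ring
      _ ≤ 4 * y1 ^ 3 * (B2 - B1) := mul_le_mul_of_nonneg_left v2 (by positivity)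
      _ ≤ _ := w2

lemma BB_pos (Λ y ym : ℝ) (h1 : 0 < ym) (h2 : ym ≤ y) (h3 : 1 < 8 * ym ^ 2) :
    1 - 1 / (8 * ym ^ 2) ≤ BB Λ y ∧ 0 < 1 - 1 / (8 * ym ^ 2) := by
  constructor
  · unfold BB
    have h4 : 8 * ym ^ 2 ≤ 8 * y ^ 2 := by nlinarith
    have h5 : 1 / (8 * y ^ 2) ≤ 1 / (8 * ym ^ 2) := one_div_le_one_div_of_le (by positivity) h4
    have h6 : 0 ≤ 1 / (8 * Λ ^ 2) := by positivity
    linarith
  · rw [sub_pos, div_lt_one (by positivity)]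
    exact h3

lemma BB_le_one (Λ y : ℝ) (h1 : 0 < y) (h2 : y ≤ Λ) : BB Λ y ≤ 1 := by
  unfold BB
  have h4 : 8 * y ^ 2 ≤ 8 * Λ ^ 2 := by nlinarith
  have h5 : 1 / (8 * Λ ^ 2) ≤ 1 / (8 * y ^ 2) := one_div_le_one_div_of_le (by positivity) h4
  linarith

lemma tt_mem (Λ y ym : ℝ) (h1 : 0 < ym) (h2 : ym ≤ y) (h3 : 1 < 8 * ym ^ 2) (h4 : y ≤ Λ) :
    tt Λ y ∈ Set.Icc (0:ℝ) (1 - Real.log (1 - 1 / (8 * ym ^ 2))) := by
  obtain ⟨h5, h6⟩ := BB_pos Λ y ym h1 h2 h3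
  have h7 := BB_le_one Λ y (h1.trans_le h2) h4
  unfold tt
  constructor
  · have := Real.log_nonpos (h6.trans_le h5).le h7
    linarith
  · have := Real.log_le_log h6 h5
    linarith

lemma T_pos (ym : ℝ) (h3 : 1 < 8 * ym ^ 2) :
    0 < 1 - Real.log (1 - 1 / (8 * ym ^ 2)) := by
  have h6 : 0 ≤ 1 - 1 / (8 * ym ^ 2) := by
    rw [sub_nonneg, div_le_one (by linarith)]
    exact h3.le
  have h7 : 1 - 1 / (8 * ym ^ 2) ≤ 1 := by
    have : 0 ≤ 1 / (8 * ym ^ 2) := by positivity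
    linarith
  have := Real.log_nonpos h6 h7
  linarith

/-- the root at the time at which `y` is reached -/
lemma rt_tt (Λ y : ℝ) (h1 : 0 < y) (h4 : y ≤ Λ) (hB : 0 < BB Λ y) :
    rt (4 * Λ ^ 2) (tt Λ y) = Λ / y := by
  unfold rt tt
  rw [neg_neg, Real.exp_log hB]
  have hΛ : 0 < Λ := h1.trans_le h4
  rw [Real.sqrt_eq_iff_mul_self_eq]
  · unfold BB
    field_simp
    ring
  · have h7 := BB_le_one Λ y h1 h4
    have : 0 ≤ 2 * (4 * Λ ^ 2) * (1 - BB Λ y) := mul_nonneg (by positivity) (by linarith)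
    linarith
  · positivity

lemma g0_lip (R a b : ℝ) (ha : 0 ≤ a) (hab : a ≤ b) (hb : b ≤ R) :
    g0 b - g0 a ≤ 4 * R ^ 2 * (b - a) := by
  unfold g0
  have hb0 : 0 ≤ b := ha.trans hab
  have h1 : a ^ 2 + a * b + b ^ 2 ≤ 3 * R ^ 2 := by nlinarith
  have h2 : 0 ≤ b - a := by linarith
  have h3 := mul_le_mul_of_nonneg_left h1 h2
  nlinarith [h3, h2]

lemma fL_lip (Λ R a b : ℝ) (hΛ : 0 < Λ) (ha : 0 < a) (hab : a ≤ b) (hb : b ≤ R) :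
    fL Λ b - fL Λ a ≤ 4 * R ^ 2 * (b - a) + R ^ 3 / (6 * Λ ^ 2) := by
  have hb0 : 0 < b := ha.trans_le hab
  rw [fL_eq Λ b hΛ hb0, fL_eq Λ a hΛ ha]
  have h1 := g0_lip R a b ha.le hab hb
  have h2 : b ^ 3 / (6 * Λ ^ 2) ≤ R ^ 3 / (6 * Λ ^ 2) := by
    apply div_le_div_of_nonneg_right _ (by positivity)
    exact pow_le_pow_left₀ hb0.le hb 3
  have h3 : 0 ≤ a ^ 3 / (6 * Λ ^ 2) := by positivity
  linarith

lemma fL_le (Λ R y : ℝ) (hΛ : 1 ≤ Λ) (hy : 0 < y) (hb : y ≤ R) : fL Λ y ≤ 2 * R ^ 3 := by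
  rw [fL_eq Λ y (by linarith) hy]
  unfold g0
  have h1 : y ^ 3 ≤ R ^ 3 := pow_le_pow_left₀ hy.le hb 3
  have h2 : y ^ 3 / (6 * Λ ^ 2) ≤ y ^ 3 / 6 := by
    apply div_le_div_of_nonneg_left (by positivity) (by norm_num)
    nlinarith
  have h3 : 0 < y ^ 3 := by positivity
  linarith

lemma fL_pos (Λ y : ℝ) (hy : 0 < y) (hB : 0 < BB Λ y) : 0 < fL Λ y := by
  unfold fL
  positivity

end Vale.Agent.P046.H822
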