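import Vale.Agent.P046.Bdl.B6
import Vale.Agent.P046.H822.Semi

/-!
The number of survivors at a fixed time.
-/

set_option autoImplicit false

open scoped Classical
open Finset

namespace Vale.Agent.P046.H822

open Vale.Agent.P046 Vale.Agent.P046.S
open Vale.Agent.P046.K (Hyp Sys Harm zd wd)

/-- the time-dependent root -/
noncomputable def rt (D t : ℝ) : ℝ := Real.sqrt (1 + 2 * D * (1 - Real.exp (-t)))

lemma rt_ge_one (D t : ℝ) (hD : 0 ≤ D) (ht : 0 ≤ t) : 1 ≤ rt D t := by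
  unfold rt
  rw [Real.one_le_sqrt]
  have h1 : Real.exp (-t) ≤ 1 := Real.exp_le_one_iff.mpr (by linarith)
  have h2 : 0 ≤ 2 * D * (1 - Real.exp (-t)) := mul_nonneg (by linarith) (by linarith)
  linarith

/-- hypergraph-level theorem at a fixed time -/
theorem time_master (hE : EnergyU) (T : ℝ) (hT : 0 < T) (M : ℝ) (hM : 0 < M) (ε : ℝ)
    (hε : 0 < ε) :
    ∃ D₁ : ℝ, 1 ≤ D₁ ∧ ∀ D₂ : ℝ, D₁ ≤ D₂ → ∀ Δ : ℕ, ∃ K₀ N₀ : ℕ,
      ∀ D ∈ Set.Icc D₁ D₂,
      ∀ (α : Type) [Fintype α] (V : Finset α) (H : Finset (Finset α)), Hyp V H →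
      MaxDeg H Δ → Sep K₀ V H → N₀ ≤ V.card →
      ∑ v ∈ V, (min (zd H D v ^ 4) (zd H D v ^ 2) + min (wd H D v ^ 2) |wd H D v|) ≤
        V.card * D ^ (-(19 / 10 : ℝ)) →
      ∀ t ∈ Set.Icc (0:ℝ) T, Real.sqrt (2 * D) ≤ M * rt D t →
      P (LH H) t (fun A => |(A.card : ℝ) - V.card / rt D t|) V ≤
          ε * (V.card / Real.sqrt (2 * D)) := by
  obtain ⟨η, hη⟩ : ∃ η : ℝ, η = min (ε / 4) (ε / (4 * M)) := ⟨_, rfl⟩
  have hη0 : 0 < η := by rw [hη]; positivity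
  have hη1 : η ≤ ε / 4 := by rw [hη]; exact min_le_left _ _
  have hη2 : η ≤ ε / (4 * M) := by rw [hη]; exact min_le_right _ _
  have hη3 : η * M ≤ ε / 4 := by
    have h := mul_le_mul_of_nonneg_right hη2 hM.le
    have e : ε / (4 * M) * M = ε / 4 := by field_simp
    rwa [e] at h
  obtain ⟨D₀, hD₀, hE1⟩ := hE T η hT hη0
  refine ⟨D₀, hD₀, ?_⟩
  intro D₂ hD₂ Δ
  have hD₂1 : 1 ≤ D₂ := hD₀.trans hD₂
  have hD₂0 : 0 < D₂ := by linarith only [hD₂1]
  obtain ⟨ξ, hξ, hE2⟩ := hE1 D₂ hD₂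
  obtain ⟨K₀, hK₀⟩ := sys_of_sep Δ T ξ hT.le hξ
  obtain ⟨R, hR⟩ := exists_locErr Δ T 2 (η ^ 2 / (2 * D₂) / 3) (by positivity)
  obtain ⟨N₀, hN₀⟩ := exists_nat_ge ((1 + 3 * Δ : ℝ) ^ (2 * R + 1) * (2 * D₂) / η ^ 2)
  refine ⟨K₀, N₀, ?_⟩
  intro D hD α _ V H hV hΔ hS hN hH t ht hrt
  have hD1 : 1 ≤ D := hD₀.trans hD.1
  have hD0 : 0 < D := by linarith only [hD1]
  have hsys := hK₀ α V H hV hΔ hS
  have hen := hE2 D hD α V H hV _ _ hsys hH
  obtain ⟨d, hd⟩ : ∃ d, d = Real.sqrt (2 * D) := ⟨_, rfl⟩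
  have hd0 : 0 < d := by rw [hd]; positivity
  have hd2 : d ^ 2 = 2 * D := by rw [hd]; exact Real.sq_sqrt (by positivity)
  obtain ⟨x, hx⟩ : ∃ x, x = (V.card : ℝ) / d := ⟨_, rfl⟩
  have hx0 : 0 ≤ x := by rw [hx]; (clear * - hd0; positivity)
  have hr1 : 1 ≤ rt D t := rt_ge_one D t hD0.le ht.1
  have hr0 : 0 < rt D t := by linarith only [hr1]
  obtain ⟨f, hf⟩ : ∃ f : ℝ, f = ∑ v ∈ V, P (LH H) t (mon {v}) V := ⟨_, rfl⟩
  have h1 : |f - V.card / rt D t| ≤ η * (V.card / rt D t) := by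
    rw [hf]; exact hen t ht
  obtain ⟨a, ha⟩ : ∃ a, a = (V.card : ℝ) / rt D t := ⟨_, rfl⟩
  rw [← ha] at h1 ⊢
  rw [← hd] at hrt ⊢
  rw [← hx]
  have hax : a ≤ M * x := by
    rw [ha, hx, ← mul_div_assoc, div_le_div_iff₀ hr0 hd0]
    have h2 : (0:ℝ) ≤ V.card := Nat.cast_nonneg _
    calc (V.card : ℝ) * d ≤ V.card * (M * rt D t) := mul_le_mul_of_nonneg_left hrt h2
      _ = M * V.card * rt D t := by ring
  have h2 := l1_bound H V Δ R hV hΔ t ht.1 f (by rw [hf])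
  have hle : locErr Δ t 2 R ≤ η ^ 2 / (2 * D₂) / 3 :=
    (locErr_mono Δ t T ht.1 ht.2 2 R).trans hR
  have h3 : Real.sqrt (3 * locErr Δ t 2 R * (V.card : ℝ) ^ 2 +
      (1 + 3 * Δ : ℝ) ^ (2 * R + 1) * V.card) ≤ 2 * η * x := by
    apply sqrt_part (V.card : ℝ) x D₂ η _ _ (Nat.cast_nonneg _) hx0 hD₂0 hη0 _ hle
    · exact hN₀.trans (by exact_mod_cast hN)
    · have e3 : x ^ 2 * (2 * D) = (V.card : ℝ) ^ 2 := by
        rw [hx, div_pow, hd2]; field_simp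
      rw [← e3]
      apply mul_le_mul_of_nonneg_left _ (sq_nonneg _)
      linarith only [hD.2]
  have h4 : P (LH H) t (fun A => |(A.card : ℝ) - a|) V ≤
      P (LH H) t (fun A => |(A.card : ℝ) - f|) V + |f - a| := by
    have e : (fun A : Finset α => |(A.card : ℝ) - f| + |f - a|) =
        (fun A => |(A.card : ℝ) - f|) + fun _ => |f - a| := rfl
    have h4 := P_mono (LH H) (LH_qpos H) t ht.1 (fun A => |(A.card : ℝ) - a|)
      (fun A => |(A.card : ℝ) - f| + |f - a|) (fun A => abs_sub_le _ _ _) V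
    rw [e, map_add] at h4
    simp only [Pi.add_apply, P_one] at h4
    exact h4
  have h5 : η * a ≤ ε / 4 * x := by
    calc η * a ≤ η * (M * x) := mul_le_mul_of_nonneg_left hax hη0.le
      _ = (η * M) * x := by ring
      _ ≤ ε / 4 * x := mul_le_mul_of_nonneg_right hη3 hx0
  have h6 : 2 * η * x ≤ ε / 2 * x := by
    apply mul_le_mul_of_nonneg_right _ hx0
    linarith only [hη1]
  have h7 : 0 ≤ ε * x := mul_nonneg hε.le hx0
  have e8 : ε / 4 * x = (ε * x) / 4 := by ring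
  have e9 : ε / 2 * x = (ε * x) / 2 := by ring
  rw [e8] at h5
  rw [e9] at h6
  linarith only [h1, h2, h3, h4, h5, h6, h7]

/-- comparison with the process on a subset -/
theorem time_transfer {α : Type} [Fintype α] (H0 : Finset (Finset α)) (V0 W : Finset α)
    (hV0 : Hyp V0 H0) (hW : W ⊆ V0) (x : ℝ) (t : ℝ) (ht : 0 ≤ t) (D : ℝ) (hD : 0 < D) :
    Dv H0 V0 t x ≤ P (LH (H0.filter (fun h => h ⊆ W))) t (fun A => |(A.card : ℝ) - x|) W +
      Real.sqrt (gw D t) * (((V0 \ W).card : ℝ) + (∑ v ∈ V0 \ W, ldeg H0 V0 v) / D) := by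
  obtain ⟨F0, hF0⟩ : ∃ F0 : Finset α → ℝ, F0 = fun A => |nV V0 A - x| := ⟨_, rfl⟩
  have h2 : |P (LH H0) t F0 V0 - P (LH H0) t F0 W| ≤
      P (LP H0) t (fun B => 1 * dN B + 0 * dY H0 B) (V0, W) :=
    P_diff_le H0 t ht F0 (fun B => 1 * dN B + 0 * dY H0 B)
      (fun A => by
        rw [hF0, one_mul, zero_mul, add_zero]
        refine (abs_abs_sub_abs_le_abs_sub _ _).trans ?_
        have e : nV V0 A.1 - x - (nV V0 A.2 - x) =
            ((A.1 ∩ V0).card : ℝ) - ((A.2 ∩ V0).card : ℝ) := by unfold nV; ring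
        rw [e]
        exact abs_card_sub_le V0 A) V0 W
  rw [PLP_lin, one_mul, zero_mul, add_zero] at h2
  have hlin : Lin H0 := lin_of_hyp hV0
  have h3 := stab_N H0 hlin D t hD ht (V0, W)
  have e1 : dN (V0, W) = ((V0 \ W).card : ℝ) := by
    unfold dN
    simp only
    rw [Finset.sdiff_eq_empty_iff_subset.mpr hW]
    simp
  have e2 : dY H0 (V0, W) = ∑ v ∈ V0 \ W, ldeg H0 V0 v := by
    unfold dY
    simp only
    rw [JJ_eq, JJ_eq, Finset.sdiff_eq_empty_iff_subset.mpr hW]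
    simp
  rw [e1, e2] at h3
  obtain ⟨H, hH⟩ : ∃ H, H = H0.filter (fun h => h ⊆ W) := ⟨_, rfl⟩
  rw [← hH]
  have h5 : P (LH H0) t F0 W = P (LH H) t (fun B => F0 (B ∩ W)) W := by
    have h := P_restrict H0 W t F0 W
    rw [Finset.inter_self] at h
    rw [hH]
    exact h.symm
  have hHH : H.filter (fun h => h ⊆ W) = H := by
    rw [hH, Finset.filter_filter]
    simp
  have h6 : P (LH H) t (fun A => |(A.card : ℝ) - x|) W =
      P (LH H) t (fun B => F0 (B ∩ W)) W := by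
    have h := P_restrict H W t (fun A => |(A.card : ℝ) - x|) W
    rw [Finset.inter_self, hHH] at h
    rw [← h]
    have e5 : (fun B => |((B ∩ W).card : ℝ) - x|) = fun B => F0 (B ∩ W) := by
      ext B
      rw [hF0]
      unfold nV
      simp only
      have e3 : (B ∩ W) ∩ V0 = B ∩ W :=
        Finset.inter_eq_left.mpr (Finset.inter_subset_right.trans hW)
      rw [e3]
    rw [e5]
  have h8 := (abs_le.mp h2).2
  have e9 : Dv H0 V0 t x = P (LH H0) t F0 V0 := by rw [hF0]; rfl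
  rw [e9]
  linarith only [h3, h5, h6, h8]

/-- hypergraph-level theorem at a fixed time, with a small exceptional set of vertices -/
theorem time_final (hE : EnergyU) (T : ℝ) (hT : 0 < T) (M : ℝ) (hM : 0 < M) (ε : ℝ)
    (hε : 0 < ε) :
    ∃ D₁ : ℝ, 1 ≤ D₁ ∧ ∀ D₂ : ℝ, D₁ ≤ D₂ →
      ∃ δ : ℝ, 0 < δ ∧ ∀ Δ : ℕ, ∃ K₀ N₀ : ℕ,
      ∀ D ∈ Set.Icc D₁ D₂,
      ∀ (α : Type) [Fintype α] (V0 W : Finset α) (H0 : Finset (Finset α)), Hyp V0 H0 → W ⊆ V0 →
      Hyp W (H0.filter (fun h => h ⊆ W)) →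
      MaxDeg (H0.filter (fun h => h ⊆ W)) Δ → Sep K₀ W (H0.filter (fun h => h ⊆ W)) →
      N₀ ≤ W.card →
      ∑ v ∈ W, (min (zd (H0.filter (fun h => h ⊆ W)) D v ^ 4)
          (zd (H0.filter (fun h => h ⊆ W)) D v ^ 2) +
        min (wd (H0.filter (fun h => h ⊆ W)) D v ^ 2) |wd (H0.filter (fun h => h ⊆ W)) D v|) ≤
        W.card * D ^ (-(19 / 10 : ℝ)) →
      ((V0 \ W).card : ℝ) + (∑ v ∈ V0 \ W, ldeg H0 V0 v) / D ≤ δ * V0.card →
      ∀ t ∈ Set.Icc (0:ℝ) T, Real.sqrt (2 * D) ≤ M * rt D t →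
      Dv H0 V0 t (V0.card / rt D t) ≤ ε * (V0.card / Real.sqrt (2 * D)) := by
  obtain ⟨D₁, hD₁, h1⟩ := time_master hE T hT M hM (ε / 8) (by positivity)
  refine ⟨D₁, hD₁, fun D₂ hD₂ => ?_⟩
  have h2 := h1 D₂ hD₂
  have hD₂0 : 0 < D₂ := by linarith
  have hs2 : 0 < Real.sqrt (2 * D₂) := Real.sqrt_pos.mpr (by positivity)
  obtain ⟨C, hC⟩ : ∃ C : ℝ, C = 1 + 4 * D₂ * Real.exp (2 * T) := ⟨_, rfl⟩
  have hC1 : 1 ≤ C := by
    rw [hC]
    have : 0 < 4 * D₂ * Real.exp (2 * T) := by positivity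
    linarith
  have hs21 : 1 ≤ Real.sqrt (2 * D₂) := by rw [Real.one_le_sqrt]; linarith
  refine ⟨ε / 8 / (C * Real.sqrt (2 * D₂)), by positivity, fun Δ => ?_⟩
  obtain ⟨K₀, N₀, h3⟩ := h2 Δ
  refine ⟨K₀, N₀, ?_⟩
  intro D hD α _ V0 W H0 hV0 hW hHW hΔ hS hN hEn hdel t ht hrt
  have hD0 : 0 < D := by linarith only [hD₁, hD, hD.1]
  have h4 := h3 D hD α W (H0.filter (fun h => h ⊆ W)) hHW hΔ hS hN hEn t ht hrt
  obtain ⟨s, hs⟩ : ∃ s, s = Real.sqrt (2 * D) := ⟨_, rfl⟩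
  have hs0 : 0 < s := by rw [hs]; exact Real.sqrt_pos.mpr (by positivity)
  have hss2 : s ≤ Real.sqrt (2 * D₂) := by
    rw [hs]; exact Real.sqrt_le_sqrt (by linarith only [hD, hD.2])
  have h6 := time_transfer H0 V0 W hV0 hW (V0.card / rt D t) t ht.1 D hD0
  have hr1 : 1 ≤ rt D t := rt_ge_one D t hD0.le ht.1
  have hr0 : 0 < rt D t := by linarith only [hr1]
  have hconst : Real.sqrt (gw D t) ≤ C := by
    have h7 := stab_const D D₂ t hD0 hD.2 ht.1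
    have h8 : 0 ≤ D * Real.exp (2 * t) / Real.sqrt (gw D t) := by
      have := Real.exp_pos (2 * t)
      have := Real.sqrt_nonneg (gw D t)
      positivity
    have h9 : Real.exp (2 * t) ≤ Real.exp (2 * T) := by
      rw [Real.exp_le_exp]
      linarith only [ht.2]
    have h10 : 4 * D₂ * Real.exp (2 * t) ≤ 4 * D₂ * Real.exp (2 * T) :=
      mul_le_mul_of_nonneg_left h9 (by linarith only [hD₂0])
    rw [hC]
    linarith only [h7, h8, h10]
  rw [← hs] at h4 ⊢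
  obtain ⟨N, hN'⟩ : ∃ N : ℝ, N = (V0.card : ℝ) := ⟨_, rfl⟩
  have hN0 : 0 ≤ N := by rw [hN']; exact Nat.cast_nonneg _
  have hWN : (W.card : ℝ) ≤ N := by rw [hN']; exact_mod_cast Finset.card_le_card hW
  have hsum0 : 0 ≤ (∑ v ∈ V0 \ W, ldeg H0 V0 v) / D :=
    div_nonneg (Finset.sum_nonneg fun v _ => ldeg_nonneg H0 V0 v) hD0.le
  have hcard : ((V0 \ W).card : ℝ) = N - W.card := by
    rw [Finset.card_sdiff_of_subset hW, Nat.cast_sub (Finset.card_le_card hW), hN']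
  obtain ⟨δ, hδ⟩ : ∃ δ : ℝ, δ = ε / 8 / (C * Real.sqrt (2 * D₂)) := ⟨_, rfl⟩
  rw [← hδ, ← hN'] at hdel
  rw [← hN'] at h6 ⊢
  have hδ0 : 0 < δ := by rw [hδ]; positivity
  have hδC : C * δ ≤ ε / 8 / s := by
    rw [hδ, le_div_iff₀ hs0]
    have e : C * (ε / 8 / (C * Real.sqrt (2 * D₂))) * s = ε / 8 * (s / Real.sqrt (2 * D₂)) := by
      field_simp
    rw [e]
    have : s / Real.sqrt (2 * D₂) ≤ 1 := by rw [div_le_one hs2]; exact hss2
    have h8 : 0 ≤ ε / 8 := by positivity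
    nlinarith only [hε, this]
  have hδ8 : δ ≤ C * δ := by
    nlinarith only [hδ0, hC1]
  -- the reference value changes a little
  have h7 : P (LH (H0.filter (fun h => h ⊆ W))) t (fun A => |(A.card : ℝ) - N / rt D t|) W ≤
      ε / 8 * (W.card / s) + δ * N := by
    have e : (fun A : Finset α => |(A.card : ℝ) - W.card / rt D t| +
          |(W.card : ℝ) / rt D t - N / rt D t|) =
        (fun A => |(A.card : ℝ) - W.card / rt D t|) +
          fun _ => |(W.card : ℝ) / rt D t - N / rt D t| := rfl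
    have h8 := P_mono (LH (H0.filter (fun h => h ⊆ W))) (LH_qpos _) t ht.1
      (fun A => |(A.card : ℝ) - N / rt D t|)
      (fun A => |(A.card : ℝ) - W.card / rt D t| + |(W.card : ℝ) / rt D t - N / rt D t|)
      (fun A => abs_sub_le _ _ _) W
    rw [e, map_add] at h8
    simp only [Pi.add_apply, P_one] at h8
    have h9 : |(W.card : ℝ) / rt D t - N / rt D t| ≤ δ * N := by
      rw [← sub_div, abs_div, abs_of_pos hr0, div_le_iff₀ hr0]
      have h10 : 0 ≤ δ * N := mul_nonneg hδ0.le hN0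
      have h11 : δ * N ≤ δ * N * rt D t := le_mul_of_one_le_right h10 hr1
      rw [abs_le]
      constructor <;> linarith only [hsum0, hcard, hdel, hWN, h10, h11]
    linarith only [h4, h8, h9]
  have h8a : C * δ * N ≤ ε / 8 * (N / s) := by
    calc C * δ * N ≤ ε / 8 / s * N := mul_le_mul_of_nonneg_right hδC hN0
      _ = ε / 8 * (N / s) := by ring
  have h8 : Real.sqrt (gw D t) *
        (((V0 \ W).card : ℝ) + (∑ v ∈ V0 \ W, ldeg H0 V0 v) / D) ≤ ε / 8 * (N / s) := by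
    have h9 : 0 ≤ ((V0 \ W).card : ℝ) + (∑ v ∈ V0 \ W, ldeg H0 V0 v) / D :=
      add_nonneg (Nat.cast_nonneg _) hsum0
    calc _ ≤ C * (((V0 \ W).card : ℝ) + (∑ v ∈ V0 \ W, ldeg H0 V0 v) / D) :=
          mul_le_mul_of_nonneg_right hconst h9
      _ ≤ C * (δ * N) := mul_le_mul_of_nonneg_left hdel (by linarith only [hC1])
      _ = C * δ * N := by ring
      _ ≤ _ := h8a
  have h10 : (W.card : ℝ) / s ≤ N / s := div_le_div_of_nonneg_right hWN hs0.le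
  have h11 : 0 ≤ N / s := div_nonneg hN0 hs0.le
  have h12 : ε / 8 * ((W.card : ℝ) / s) ≤ ε / 8 * (N / s) :=
    mul_le_mul_of_nonneg_left h10 (by positivity)
  have h13 : δ * N ≤ ε / 8 * (N / s) :=
    (mul_le_mul_of_nonneg_right hδ8 hN0).trans h8a
  have h14 : 0 ≤ ε * (N / s) := mul_nonneg hε.le h11
  have e15 : ε / 8 * (N / s) = ε * (N / s) / 8 := by ring
  rw [e15] at h8 h12 h13
  linarith only [h6, h7, h8, h12, h13, h14]

end Vale.Agent.P046.H822
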