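import Vale.Agent.P046.H822.Level
import Vale.Agent.P046.H822.Conc

/-!
The number of triangles at a fixed step, above the final level.
-/

set_option autoImplicit false

open scoped Classical
open Finset

namespace Vale.Agent.P046.H822

open Vale.Agent.P046 Vale.Agent.P046.Lv

variable {n : ℕ}

/-- the fixed-time estimate at the time at which `y` is reached -/
lemma dv_at (G : SimpleGraph (Fin n)) (s Λ R ym η y : ℝ) (hs : (n : ℝ) ^ (3 / 2 : ℝ) = s)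
    (hs0 : 0 < s) (hΛ : (numEdges G : ℝ) = Λ * s) (hym : 0 < ym) (hym1 : 1 < 8 * ym ^ 2)
    (hgood : ∀ t ∈ Set.Icc (0:ℝ) (1 - Real.log (1 - 1 / (8 * ym ^ 2))),
      Real.sqrt (2 * C.cc G) ≤ (4 * R) * rt (C.cc G) t →
        Dv (K.TH G) G.edgeFinset t ((numEdges G : ℝ) / rt (C.cc G) t) ≤ η * s)
    (hy1 : ym ≤ y) (hy2 : y ≤ R) (hR : R ≤ Λ) :
    Dv (K.TH G) G.edgeFinset (tt Λ y) (y * s) ≤ η * s := by
  have hs2 : s ^ 2 = (n : ℝ) ^ 3 := by rw [← hs]; exact C.Fi.s_sq n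
  have hy0 : 0 < y := hym.trans_le hy1
  have hΛ0 : 0 < Λ := hy0.trans_le (hy2.trans hR)
  have hcc : C.cc G = 4 * Λ ^ 2 := by
    unfold C.cc
    rw [hΛ, ← hs2]
    field_simp
  obtain ⟨b1, b2⟩ := BB_pos Λ y ym hym hy1 hym1
  have hrt := rt_tt Λ y hy0 (hy2.trans hR) (b2.trans_le b1)
  have h1 := hgood (tt Λ y) (tt_mem Λ y ym hym hy1 hym1 (hy2.trans hR)) (by
    rw [hcc, hrt]
    have e : Real.sqrt (2 * (4 * Λ ^ 2)) ≤ 4 * Λ := by
      rw [Real.sqrt_le_left (by positivity)]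
      nlinarith [sq_nonneg Λ]
    refine e.trans ?_
    rw [← mul_div_assoc, le_div_iff₀ hy0]
    have : Λ * y ≤ Λ * R := mul_le_mul_of_nonneg_left hy2 hΛ0.le
    linarith)
  rw [hcc, hrt, hΛ] at h1
  have e2 : Λ * s / (Λ / y) = y * s := by field_simp
  rw [e2] at h1
  exact h1

/-- numerical part -/
lemma num_part (ε s A B D : ℝ) (hε : 0 < ε) (hs : 0 < s) (hA : A ≤ 9 / 64 * ε ^ 2)
    (hB : ε / 2 ≤ B) (hD : D ≤ ε / 8) : (A * s) / (B * s) + D ≤ ε / 2 := by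
  have hB0 : 0 < B := by linarith
  rw [mul_div_mul_right _ _ hs.ne']
  have h1 : A / B ≤ 3 / 8 * ε := by
    rw [div_le_iff₀ hB0]
    have : ε * (ε / 2) ≤ ε * B := mul_le_mul_of_nonneg_left hB hε.le
    nlinarith [sq_nonneg ε]
  linarith

/-- both tails at a typical graph -/
lemma tri_good (G : SimpleGraph (Fin n)) (s Λ R ym η δ ε x : ℝ) (e j : ℕ)
    (hs : (n : ℝ) ^ (3 / 2 : ℝ) = s)
    (hs0 : 0 < s) (hΛ : (numEdges G : ℝ) = Λ * s) (hym : 0 < ym) (hym1 : 1 < 8 * ym ^ 2)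
    (hgood : ∀ t ∈ Set.Icc (0:ℝ) (1 - Real.log (1 - 1 / (8 * ym ^ 2))),
      Real.sqrt (2 * C.cc G) ≤ (4 * R) * rt (C.cc G) t →
        Dv (K.TH G) G.edgeFinset t ((numEdges G : ℝ) / rt (C.cc G) t) ≤ η * s)
    (hR1 : 1 ≤ R) (hR : R + 16 * R ^ 3 / ε ^ 2 ≤ Λ) (hη0 : 0 ≤ η) (hδ : 0 < δ)
    (hε : 0 < ε) (hε1 : ε ≤ 1) (hη1 : η ≤ ε * δ / 8) (hη2 : η ≤ ε ^ 2 * δ / (192 * R ^ 3))
    (hδ2 : 128 * R ^ 2 * δ ≤ ε ^ 2)
    (he : numEdges G = e + 3 * j) (hx : (e:ℝ) = x * s) (hx1 : ym + 2 * δ ≤ x)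
    (hx2 : x + 2 * δ ≤ R) :
    V (Tge ((g0 x + ε) * s)) j G ≤ ε / 2 ∧ V (Tle ((g0 x - ε) * s)) j G ≤ ε / 2 := by
  have hq : 0 ≤ 16 * R ^ 3 / ε ^ 2 := by positivity
  have hRΛ : R ≤ Λ := by linarith
  have hΛ1 : 1 ≤ Λ := hR1.trans hRΛ
  have hΛ0 : 0 < Λ := by linarith
  have hx0 : 0 < x := by linarith
  have hdv : ∀ y, ym ≤ y → y ≤ R → Dv (K.TH G) G.edgeFinset (tt Λ y) (y * s) ≤ η * s :=
    fun y h1 h2 => dv_at G s Λ R ym η y hs hs0 hΛ hym hym1 hgood h1 h2 hRΛ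
  have hCR : (0:ℝ) < 2 * R ^ 3 := by positivity
  have hfl : ∀ y, 0 < y → y ≤ R → fL Λ y ≤ 2 * R ^ 3 := fun y h1 h2 => fL_le Λ R y hΛ1 h1 h2
  have hBx : ∀ y, ym ≤ y → 0 < BB Λ y := fun y h1 =>
    (BB_pos Λ y ym hym h1 hym1).2.trans_le (BB_pos Λ y ym hym h1 hym1).1
  have hsmall : R ^ 3 / (6 * Λ ^ 2) ≤ ε ^ 2 / 64 := by
    rw [div_le_div_iff₀ (by positivity) (by norm_num)]
    have h1 : 16 * R ^ 3 ≤ Λ * ε ^ 2 := by
      have h2 : 16 * R ^ 3 / ε ^ 2 ≤ Λ := by linarith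
      rwa [div_le_iff₀ (by positivity)] at h2
    have h3 : Λ * ε ^ 2 ≤ Λ ^ 2 * ε ^ 2 := by
      apply mul_le_mul_of_nonneg_right _ (by positivity)
      nlinarith
    have h4 : 0 < R ^ 3 := by positivity
    nlinarith
  have hε2 : ε ^ 2 ≤ ε := by nlinarith
  have hηδ : η / δ ≤ ε / 8 := by
    rw [div_le_iff₀ hδ]
    linarith
  have hηC : 6 * η * (2 * R ^ 3) / δ ≤ ε ^ 2 / 16 := by
    rw [div_le_iff₀ hδ]
    rw [le_div_iff₀ (by positivity)] at hη2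
    linarith
  have hRδ : 4 * R ^ 2 * (2 * δ) ≤ ε ^ 2 / 16 := by linarith
  have hRδ0 : 0 ≤ R ^ 2 * δ := by positivity
  constructor
  · have h1 := fL_lip Λ R x (x + 2 * δ) hΛ0 hx0 (by linarith) hx2
    have e1 : x + 2 * δ - x = 2 * δ := by ring
    rw [e1] at h1
    have h2 := g0_lip R x (x + δ) hx0.le (by linarith) (by linarith)
    have e2 : x + δ - x = δ := by ring
    rw [e2] at h2
    have h3 : fL Λ (x + δ) ≤ g0 (x + δ) + ε ^ 2 / 64 := by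
      rw [fL_eq Λ (x + δ) hΛ0 (by linarith)]
      have h4 : (x + δ) ^ 3 / (6 * Λ ^ 2) ≤ R ^ 3 / (6 * Λ ^ 2) := by
        apply div_le_div_of_nonneg_right _ (by positivity)
        exact pow_le_pow_left₀ (by linarith) (by linarith) 3
      linarith
    have hB : ε / 2 ≤ g0 x + ε - fL Λ (x + δ) := by linarith
    have h5 := tri_upper G Λ s η δ (2 * R ^ 3) x ((g0 x + ε) * s) e j he hx hx0 hs0 hη0 hδ hCR
      (by linarith) (hBx x (by linarith)) (hfl _ (by linarith) hx2)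
      (hfl _ (by linarith) (by linarith))
      (hdv _ (by linarith) hx2) (hdv _ (by linarith) (by linarith))
      (hdv _ (by linarith) (by linarith)) (by
        apply mul_lt_mul_of_pos_right _ hs0
        linarith)
    refine h5.trans ?_
    have e3 : (g0 x + ε) * s - fL Λ (x + δ) * s = (g0 x + ε - fL Λ (x + δ)) * s := by ring
    have e4 : (fL Λ (x + 2 * δ) - fL Λ x) * s + 6 * η * s * (2 * R ^ 3) / δ =
        (fL Λ (x + 2 * δ) - fL Λ x + 6 * η * (2 * R ^ 3) / δ) * s := by ring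
    rw [e3, e4]
    exact num_part ε s _ _ _ hε hs0 (by linarith) hB hηδ
  · have h1 := fL_lip Λ R (x - 2 * δ) x hΛ0 (by linarith) (by linarith) (by linarith)
    have e1 : x - (x - 2 * δ) = 2 * δ := by ring
    rw [e1] at h1
    have h2 := g0_lip R (x - 2 * δ) x (by linarith) (by linarith) (by linarith)
    rw [e1] at h2
    have h3 : g0 (x - 2 * δ) ≤ fL Λ (x - 2 * δ) := by
      rw [fL_eq Λ (x - 2 * δ) hΛ0 (by linarith)]
      have h4 : 0 ≤ (x - 2 * δ) ^ 3 / (6 * Λ ^ 2) := by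
        have : 0 < x - 2 * δ := by linarith
        positivity
      linarith
    have hB : ε / 2 ≤ fL Λ (x - 2 * δ) - (g0 x - ε) := by linarith
    have h5 := tri_lower G Λ s η δ (2 * R ^ 3) x ((g0 x - ε) * s) e j he hx (by linarith)
      hs0 hη0 hδ hCR
      (by linarith) (hBx (x - 2 * δ) (by linarith)) (hfl _ (by linarith) (by linarith))
      (hfl _ (by linarith) (by linarith))
      (hdv _ (by linarith) (by linarith)) (hdv _ (by linarith) (by linarith))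
      (hdv _ (by linarith) (by linarith)) (by
        apply mul_lt_mul_of_pos_right _ hs0
        linarith)
    refine h5.trans ?_
    have e3 : fL Λ (x - 2 * δ) * s - (g0 x - ε) * s = (fL Λ (x - 2 * δ) - (g0 x - ε)) * s := by
      ring
    have e4 : (fL Λ x - fL Λ (x - 2 * δ)) * s + 6 * η * s * (2 * R ^ 3) / δ =
        (fL Λ x - fL Λ (x - 2 * δ) + 6 * η * (2 * R ^ 3) / δ) * s := by ring
    rw [e3, e4]
    exact num_part ε s _ _ _ hε hs0 (by linarith) hB hηδ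

/-- the number of triangles at a fixed step above the final level -/
theorem tri_main (L ε γ : ℝ) (hL : 0 ≤ L) (hε : 0 < ε) (hε1 : ε ≤ 1) (hγ : 0 < γ) :
    ∃ n0 : ℕ, ∀ n : ℕ, n0 ≤ n → ∀ e k : ℕ, n.choose 2 = e + 3 * k → ∀ x : ℝ,
      (e:ℝ) = x * (n : ℝ) ^ (3 / 2 : ℝ) → 1 / (2 * √2) + γ ≤ x → x ≤ L →
      V (Tge ((g0 x + ε) * (n : ℝ) ^ (3 / 2 : ℝ))) k (⊤ : SimpleGraph (Fin n)) ≤ ε ∧
      V (Tle ((g0 x - ε) * (n : ℝ) ^ (3 / 2 : ℝ))) k (⊤ : SimpleGraph (Fin n)) ≤ ε := by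
  obtain ⟨c, hc⟩ : ∃ c : ℝ, c = 1 / (2 * √2) := ⟨_, rfl⟩
  have hc0 : 0 < c := by rw [hc]; positivity
  have hc2 : 8 * c ^ 2 = 1 := by
    rw [hc, div_pow, mul_pow, Real.sq_sqrt (by norm_num)]
    norm_num
  obtain ⟨R, hR⟩ : ∃ R : ℝ, R = L + 2 := ⟨_, rfl⟩
  have hR1 : 1 ≤ R := by linarith
  obtain ⟨δ, hδ⟩ : ∃ δ : ℝ, δ = min (γ / 3) (min (1 / 2) (ε ^ 2 / (128 * R ^ 2))) := ⟨_, rfl⟩
  have hδ0 : 0 < δ := by rw [hδ]; positivity
  have hδ1 : δ ≤ γ / 3 := by rw [hδ]; exact min_le_left _ _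
  have hδ2 : δ ≤ 1 / 2 := by rw [hδ]; exact (min_le_right _ _).trans (min_le_left _ _)
  have hδ3 : 128 * R ^ 2 * δ ≤ ε ^ 2 := by
    have h : δ ≤ ε ^ 2 / (128 * R ^ 2) := by
      rw [hδ]; exact (min_le_right _ _).trans (min_le_right _ _)
    rw [le_div_iff₀ (by positivity)] at h
    linarith
  obtain ⟨ym, hym⟩ : ∃ ym : ℝ, ym = c + δ := ⟨_, rfl⟩
  have hym0 : 0 < ym := by linarith
  have hym1 : 1 < 8 * ym ^ 2 := by
    rw [hym]
    have : 0 < c * δ := by positivity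
    nlinarith
  obtain ⟨η, hη⟩ : ∃ η : ℝ, η = min (ε / 2) (min (ε * δ / 8) (ε ^ 2 * δ / (192 * R ^ 3))) :=
    ⟨_, rfl⟩
  have hη0 : 0 < η := by rw [hη]; positivity
  have hη1 : η ≤ ε / 2 := by rw [hη]; exact min_le_left _ _
  have hη2 : η ≤ ε * δ / 8 := by rw [hη]; exact (min_le_right _ _).trans (min_le_left _ _)
  have hη3 : η ≤ ε ^ 2 * δ / (192 * R ^ 3) := by
    rw [hη]; exact (min_le_right _ _).trans (min_le_right _ _)
  obtain ⟨κ, hκ⟩ : ∃ κ : ℝ, κ = R + 16 * R ^ 3 / ε ^ 2 := ⟨_, rfl⟩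
  have hκR : R ≤ κ := by
    have : 0 ≤ 16 * R ^ 3 / ε ^ 2 := by positivity
    linarith
  obtain ⟨n0, hn0⟩ := level_main _ (T_pos ym hym1) (4 * R) (by linarith) κ (by linarith) η hη0
  refine ⟨n0 + 1, fun n hn e k hek x hx hx1 hx2 => ?_⟩
  obtain ⟨k1, e1, b, hb0, hb1, hb2, hb3, hb4⟩ := hn0 n (by omega)
  obtain ⟨s, hs⟩ : ∃ s : ℝ, (n : ℝ) ^ (3 / 2 : ℝ) = s := ⟨_, rfl⟩
  have hs0 : 0 < s := by
    rw [← hs]
    apply Real.rpow_pos_of_pos
    have : 0 < n := by omega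
    exact_mod_cast this
  rw [hs] at hb3 hx ⊢
  rw [← hc] at hx1
  have hx0 : 0 < x := by linarith
  have hee : e ≤ e1 := by
    have h1 : (e:ℝ) ≤ e1 := by
      rw [hx]
      refine le_trans ?_ hb3
      exact mul_le_mul_of_nonneg_right (by linarith) hs0.le
    exact_mod_cast h1
  obtain ⟨j, hj⟩ : ∃ j, k = k1 + j := ⟨k - k1, by omega⟩
  have hej : e1 = e + 3 * j := by omega
  have key : ∀ G : SimpleGraph (Fin n), b G < 1 →
      V (Tge ((g0 x + ε) * s)) j G ≤ ε / 2 ∧ V (Tle ((g0 x - ε) * s)) j G ≤ ε / 2 := by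
    intro G hG
    obtain ⟨hG1, hG2⟩ := hb4 G hG
    rw [hs] at hG2
    have hΛ : (numEdges G : ℝ) = ((e1:ℝ) / s) * s := by
      rw [hG1, div_mul_cancel₀ _ hs0.ne']
    exact tri_good G s ((e1:ℝ) / s) R ym η δ ε x e j hs hs0 hΛ hym0 hym1 hG2 hR1
      (by rw [← hκ, le_div_iff₀ hs0]; exact hb3) hη0.le hδ0 hε hε1 hη2 hη3 hδ3
      (by rw [hG1]; exact hej) hx (by linarith) (by linarith)
  have comb : ∀ F : SimpleGraph (Fin n) → ℝ, (∀ G, F G ≤ 1) →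
      (∀ G, b G < 1 → V F j G ≤ ε / 2) → V F (k1 + j) (⊤ : SimpleGraph (Fin n)) ≤ ε := by
    intro F hF1 hF2
    rw [LB.V_add_steps]
    have h1 := LB.V_mono (V F j) (fun G => b G + ε / 2) (fun G => by
      by_cases hG : b G < 1
      · have := hF2 G hG
        have := hb0 G
        linarith
      · have := V_le_one F hF1 j G
        push Not at hG
        linarith) k1 (⊤ : SimpleGraph (Fin n))
    rw [LB.V_add_fun, LB.V_const] at h1
    linarith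
  rw [hj]
  exact ⟨comb _ (Tge_le_one _) fun G hG => (key G hG).1,
    comb _ (Tle_le_one _) fun G hG => (key G hG).2⟩

end Vale.Agent.P046.H822
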